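import Vale.Agent.P236S.Seeds
import Vale.Agent.P236L.Api
import Vale.Agent.P257.H163.Toda
import Vale.Agent.P257.H709.LowPi
import Vale.Agent.P257.H709.ModPProd

/-!
# P236, block SEEDS: the seeds in terms of `Dif`, `Bd`, `Perm`

`V` is an object killed by the odd prime `p` in which the Toda relation holds (`Seed`).

* `perm_one`, `Perm.cup_t`, `Perm.cup_b`: `1`, `z t`, `z b` are permanent cycles;
* `Seed.bd_toda`, `Seed.bd_toda'`, `Seed.bd_pow`: `z b^p t`, `z t b^p`, `z b^K` (`K ≥ (p-1)²+p`) are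
  killed, for every permanent cycle `z`;
* `p = 3`: `Seed.tbbb`, `Seed.bbbt`, `Seed.b7`, and the differentials `Seed.d5`, `Seed.d9`;
* `seed_moore`: `V = S/p`.
-/

open CategoryTheory MonoidalCategory Limits Pretriangulated MonObj

set_option linter.unusedSectionVars false

universe v u

namespace Vale.Agent.P236S

open Vale.Agent.P251 Vale.Agent.P251.T Vale.Agent.P251.F Vale.Agent.P251.I
  Vale.Agent.P251.M Vale.Agent.P257.H314 Vale.Agent.P257.H712 Vale.Agent.P257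
open Vale.Agent.P251.S hiding IC
open Vale.Agent.P236L (Dif Bd Perm Gen sM cupw cupc gen_of_cyc)

section Alg

variable {N : Type} [CommRing N] [LawRing N]

lemma cupc_one_left {b : ℕ} (h : 0 + b = b) (y : Cob N b) : cupc h (1 : Cob N 0) y = y := by
  have e : P236L.backc h = id := by
    funext i
    ext
    simp [P236L.backc]
  rw [cupc, map_one, _root_.one_mul, e, Cob.map_id]

lemma cupc_one_right {a : ℕ} (h : a + 0 = a) (x : Cob N a) : cupc h x (1 : Cob N 0) = x := by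
  have e : P236L.frontc h = id := rfl
  rw [cupc, map_one, _root_.mul_one, e, Cob.map_id]

end Alg

variable {T : Type u} [Category.{v} T] [Preadditive T] [HasZeroObject T]
    [HasShift T ℤ] [∀ n : ℤ, (shiftFunctor T n).Additive] [Pretriangulated T]
    [MonoidalCategory T] [SymmetricCategory T] [TensorTriangulated T] [HasCoproducts.{0} T]
    [MonoidalClosed T] [IsTriangulated T] [HasProducts.{0} T] [StableCat T]
    {D : MUData T} {U : UnitCof D.R} {V : T} {i : 𝟙_ T ⟶ V}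

lemma cls_eq (s : ℕ) (w n : ℤ) (h : n + (s : ℤ) = 2 * w) (x : Cob.wt Laz s w) :
    P236L.cls D U i s w n h x = cls U i (sM T w) h x := rfl

/-- The unit is a permanent cycle. -/
theorem perm_unit (y : Cob.wt Laz 0 0) (hy : y.1 = 1) : Perm D U i y := by
  obtain ⟨y, hw⟩ := y
  obtain rfl : y = 1 := hy
  exact ⟨0, by simp, perm_one rfl (sM T 0) (by simp)⟩

section General

variable {p : ℕ} [Fact p.Prime] (hp : p ≠ 2) {t : Cob Laz 1} (ht : IsT1 p t)
  {s : ℕ} {w : ℤ} {z : Cob.wt Laz s w}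

include hp ht

/-- The product of a permanent cycle with `t` is a permanent cycle. -/
theorem perm_t (H : Perm D U i z) {w' : ℤ} (hw : w' = w + (p - 1)) (y : Cob.wt Laz (s + 1) w')
    (hy : y.1 = Cob.cup (a := s) (b := 1) z.1 t) : Perm D U i y := by
  obtain ⟨y, hyw⟩ := y
  obtain rfl : y = _ := hy
  obtain ⟨n, h, H⟩ := H
  have h' : n + (2 * ((p : ℤ) - 1) - 1) + ((s + 1 : ℕ) : ℤ) = 2 * w' := by
    rw [hw]; push_cast; linarith
  exact ⟨_, h', perm_cup_t hp ht (α := sM T w) (h := h) H hw rfl (sM T w') h' hyw⟩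

/-- The product of a permanent cycle with `b^K` is a permanent cycle. -/
theorem perm_bN (H : Perm D U i z) (K : ℕ) {w' : ℤ} (hw : w' = w + K * (p * (p - 1)))
    (y : Cob.wt Laz (s + 2 * K) w') (hy : y.1 = cupN z.1 (bcls p t) K) : Perm D U i y := by
  obtain ⟨y, hyw⟩ := y
  obtain rfl : y = _ := hy
  obtain ⟨n, h, H⟩ := H
  have h' : n + K * (2 * ((p : ℤ) * ((p : ℤ) - 1)) - 2) + ((s + 2 * K : ℕ) : ℤ) = 2 * w' := by
    rw [hw]; push_cast; linarith
  exact ⟨_, h', perm_cupN hp ht (α := sM T w) (h := h) H K hw rfl (sM T w') h' hyw⟩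

/-- The product of a permanent cycle with `b` is a permanent cycle. -/
theorem perm_b (H : Perm D U i z) {w' : ℤ} (hw : w' = w + p * (p - 1))
    (y : Cob.wt Laz (s + 2) w') (hy : y.1 = Cob.cup (a := s) (b := 2) z.1 (bcls p t)) :
    Perm D U i y :=
  perm_bN hp ht H 1 (by rw [hw]; push_cast; ring) y hy

end General

variable (D U V) in
/-- `V` is killed by `p` and the Toda relation holds. -/
structure Seed (p : ℕ) : Prop where
  kil : (p : ℤ) • 𝟙 V = 0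
  toda : H545.TodaRel p D U

/-- The Moore object `S/p`. -/
theorem seed_moore (F : SpaceFunctor T) {p : ℕ} [Fact p.Prime] (hp : p ≠ 2)
    {δ : V ⟶ (𝟙_ T)⟦(1 : ℤ)⟧} (hC : Triangle.mk ((p : ℤ) • 𝟙 (𝟙_ T)) i δ ∈ distTriang T) :
    Seed D U V p where
  kil := H709.zsmul_id hC (H709.pi_low D U hp hC le_rfl (by
    have h1 := (Fact.out : p.Prime).two_le
    omega))
  toda := H163.todaRel F D U hp hC

section General

variable {p : ℕ} [Fact p.Prime] (S : Seed D U V p) (hp : p ≠ 2) {t : Cob Laz 1} (ht : IsT1 p t)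
  {s : ℕ} {w : ℤ} {z : Cob.wt Laz s w}

include S hp ht

/-- `z b^p t` is killed. -/
theorem Seed.bd_toda (H : Perm D U i z) {w' : ℤ} (hw : w' = w + p * (p * (p - 1)) + (p - 1))
    (y : Cob.wt Laz (s + 2 * p + 1) w')
    (hy : y.1 = Cob.cup (a := s + 2 * p) (b := 1) (cupN z.1 (bcls p t) p) t) : Bd D U i 0 y := by
  obtain ⟨y, hyw⟩ := y
  obtain rfl : y = _ := hy
  obtain ⟨n, h, H⟩ := H
  have h' : n + p * (2 * ((p : ℤ) * ((p : ℤ) - 1)) - 2) + (2 * ((p : ℤ) - 1) - 1) +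
      ((s + 2 * p + 1 : ℕ) : ℤ) = 2 * w' := by
    rw [hw]; push_cast; linarith
  exact ⟨_, h', null_toda hp ht S.kil S.toda (α := sM T w) (h := h) H hw rfl (sM T w') h' hyw⟩

/-- `z t b^p` is killed. -/
theorem Seed.bd_toda' (H : Perm D U i z) {w' : ℤ} (hw : w' = w + (p - 1) + p * (p * (p - 1)))
    (y : Cob.wt Laz (s + 1 + 2 * p) w')
    (hy : y.1 = cupN (Cob.cup (a := s) (b := 1) z.1 t) (bcls p t) p) : Bd D U i 0 y := by
  obtain ⟨y, hyw⟩ := y
  obtain rfl : y = _ := hy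
  obtain ⟨n, h, H⟩ := H
  have h' : n + (2 * ((p : ℤ) - 1) - 1) + p * (2 * ((p : ℤ) * ((p : ℤ) - 1)) - 2) +
      ((s + 1 + 2 * p : ℕ) : ℤ) = 2 * w' := by
    rw [hw]; push_cast; linarith
  exact ⟨_, h', null_toda' hp ht S.kil S.toda (α := sM T w) (h := h) H hw rfl (sM T w') h' hyw⟩

/-- `z b^K` is killed if `K ≥ (p-1)² + p`. -/
theorem Seed.bd_pow (H : Perm D U i z) (K : ℕ) (hK : (p - 1) ^ 2 + p ≤ K) {w' : ℤ}
    (hw : w' = w + K * (p * (p - 1))) (y : Cob.wt Laz (s + 2 * K) w')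
    (hy : y.1 = cupN z.1 (bcls p t) K) : Bd D U i 0 y := by
  obtain ⟨y, hyw⟩ := y
  obtain rfl : y = _ := hy
  obtain ⟨n, h, H⟩ := H
  have h' : n + K * (2 * ((p : ℤ) * ((p : ℤ) - 1)) - 2) + ((s + 2 * K : ℕ) : ℤ) = 2 * w' := by
    rw [hw]; push_cast; linarith
  exact ⟨_, h', null_pow hp ht S.kil S.toda (α := sM T w) (h := h) H K hK hw rfl (sM T w') h' hyw⟩

/-- The Toda lemma: if every element with class `z t` dies in filtration zero, then `z b^K` is
killed for `K ≥ (p-1)²`. -/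
theorem Seed.bd_pow_of_alpha (H : Perm D U i z) {w₁ n₁ : ℤ} (hw₁ : w₁ = w + (p - 1))
    (h₁ : n₁ + ((s + 1 : ℕ) : ℤ) = 2 * w₁) (y₁ : Cob.wt Laz (s + 1) w₁)
    (hy₁ : y₁.1 = Cob.cup (a := s) (b := 1) z.1 t)
    (hα : ∀ c, (CV U V).j (s + 1) n₁ c = P236L.cls D U i (s + 1) w₁ n₁ h₁ y₁ →
      (CV U V).proj n₁ (Nat.zero_le _) c = 0)
    (K : ℕ) (hK : (p - 1) ^ 2 ≤ K) {w' : ℤ}
    (hw : w' = w + K * (p * (p - 1))) (y : Cob.wt Laz (s + 2 * K) w')
    (hy : y.1 = cupN z.1 (bcls p t) K) : Bd D U i 0 y := by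
  obtain ⟨y, hyw⟩ := y
  obtain rfl : y = _ := hy
  obtain ⟨y₁, hyw₁⟩ := y₁
  obtain rfl : y₁ = _ := hy₁
  obtain ⟨n, h, H⟩ := H
  have h' : n + K * (2 * ((p : ℤ) * ((p : ℤ) - 1)) - 2) + ((s + 2 * K : ℕ) : ℤ) = 2 * w' := by
    rw [hw]; push_cast; linarith
  have hn₁ : n₁ = n + (2 * ((p : ℤ) - 1) - 1) := by
    rw [hw₁] at h₁; push_cast at h₁; linarith
  exact ⟨_, h', null_cupN_of_alpha hp ht S.kil S.toda (α := sM T w) (h := h) H hw₁ hn₁
    (sM T w₁) h₁ hyw₁ hα K hK hw rfl (sM T w') h' hyw⟩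

end General

section Van

variable {p h : ℕ} (H : Cyc D p h i)

include H

/-- One step up through a vanishing group. -/
theorem bd_succ_of_algVan {r s' : ℕ} {w' : ℤ} {y : Cob.wt Laz s' w'} (hy : Bd D U i r y)
    (hr : r + 2 ≤ s') (hA : ∀ w₀ : ℤ, 2 * w' - s' = 2 * w₀ - r - 1 → AlgVan p h r w₀) :
    Bd D U i (r + 1) y := by
  have G : Gen D U i (IC p h) := gen_of_cyc H
  refine G.bd_succ hy hr fun w₀ x hx hd => ?_
  have h1 := hA w₀ hd.deg
  cases r with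
  | zero =>
    exact (hd.congr G (x' := 0) (y' := y) (by simpa using h1 x.1 x.2 hx) (by simp)).bd_of_zero
  | succ r =>
    obtain ⟨e, he, hxe⟩ := h1 x.1 x.2 hx
    exact (P236L.bd_d (t := 0) (⟨e, he⟩ : Cob.wt Laz r w₀) (Nat.zero_le _)).perm.bd
      (hd.congr G (y' := y) hxe (by simp))

end Van

/-! ### The prime three -/

section Three

instance fact3 : Fact (Nat.Prime 3) := ⟨Nat.prime_three⟩

variable {t : Cob Laz 1}

/-- `t` as a homogeneous cochain. -/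
def tW (ht : IsT1 3 t) : Cob.wt Laz 1 2 := ⟨t, t_wt (p := 3) (by norm_num) ht⟩

/-- `b` as a homogeneous cochain. -/
noncomputable def bW (ht : IsT1 3 t) : Cob.wt Laz 2 6 :=
  ⟨bcls 3 t, b_wt (p := 3) (by norm_num) ht⟩

@[simp] lemma coe_tW (ht : IsT1 3 t) : (tW ht).1 = t := rfl

@[simp] lemma coe_bW (ht : IsT1 3 t) : (bW ht).1 = bcls 3 t := rfl

/-- The powers of `b`. -/
noncomputable def bP (ht : IsT1 3 t) (K : ℕ) : Cob.wt Laz (2 * K) (6 * K) :=
  ⟨cupPow (bcls 3 t) K, cupPow_isWt (bW ht).2 K⟩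

@[simp] lemma coe_bP (ht : IsT1 3 t) (K : ℕ) : (bP ht K).1 = cupPow (bcls 3 t) K := rfl

lemma bP_succ (ht : IsT1 3 t) (K : ℕ) :
    bP ht (K + 1) = cupw (by ring) (by push_cast; ring) (bP ht K) (bW ht) := rfl

lemma bP_one (ht : IsT1 3 t) : bP ht 1 = bW ht :=
  Subtype.ext (cupc_one_left (b := 2) rfl (bcls 3 t))

/-- `t b b b`. -/
noncomputable def tbbb (ht : IsT1 3 t) : Cob.wt Laz 7 20 :=
  cupw (a := 5) (b := 2) (w := 14) (v := 6) rfl rfl
    (cupw (a := 3) (b := 2) (w := 8) (v := 6) rfl rfl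
      (cupw (a := 1) (b := 2) (w := 2) (v := 6) rfl rfl (tW ht) (bW ht)) (bW ht)) (bW ht)

/-- `b b b t`. -/
noncomputable def bbbt (ht : IsT1 3 t) : Cob.wt Laz 7 20 :=
  cupw (a := 6) (b := 1) (w := 18) (v := 2) rfl rfl (bP ht 3) (tW ht)

variable (ht : IsT1 3 t)

theorem perm_tW : Perm D U i (tW ht) :=
  perm_t (p := 3) (by norm_num) ht (perm_unit ⟨1, Cob.isWt_one⟩ rfl) (by norm_num) (tW ht)
    (cupc_one_left (b := 1) rfl t).symm

theorem perm_bW : Perm D U i (bW ht) :=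
  perm_b (p := 3) (by norm_num) ht (perm_unit ⟨1, Cob.isWt_one⟩ rfl) (by norm_num) (bW ht)
    (cupc_one_left (b := 2) rfl _).symm

theorem Perm.mul_t {s s' : ℕ} {w w' : ℤ} {z : Cob.wt Laz s w} (H : Perm D U i z)
    (hs : s + 1 = s') (hw : w + 2 = w') : Perm D U i (cupw hs hw z (tW ht)) := by
  subst hs
  exact perm_t (p := 3) (by norm_num) ht H (by rw [← hw]; norm_num) _ rfl

theorem Perm.mul_b {s s' : ℕ} {w w' : ℤ} {z : Cob.wt Laz s w} (H : Perm D U i z)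
    (hs : s + 2 = s') (hw : w + 6 = w') : Perm D U i (cupw hs hw z (bW ht)) := by
  subst hs
  exact perm_b (p := 3) (by norm_num) ht H (by rw [← hw]; norm_num) _ rfl

variable (S : Seed D U V 3)

include S

/-- **First seed**: `t b b b` is killed. -/
theorem Seed.tbbb : Bd D U i 0 (tbbb ht) := by
  refine S.bd_toda' (by norm_num) ht (perm_unit ⟨1, Cob.isWt_one⟩ rfl) (by norm_num)
    (P236S.tbbb ht) ?_
  have h := cupc_one_left (b := 1) rfl t
  exact congrArg (fun x => cupN x (bcls 3 t) 3) h.symm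

/-- **First seed**: `b b b t` is killed. -/
theorem Seed.bbbt : Bd D U i 0 (bbbt ht) :=
  S.bd_toda (by norm_num) ht (perm_unit ⟨1, Cob.isWt_one⟩ rfl) (by norm_num)
    (P236S.bbbt ht) rfl

/-- **Second seed**: `b^7` is killed. -/
theorem Seed.b7 : Bd D U i 0 (bP ht 7) :=
  S.bd_pow (by norm_num) ht (perm_unit ⟨1, Cob.isWt_one⟩ rfl) 7 (by norm_num) (by norm_num)
    (bP ht 7) rfl

omit S in
/-- A class in the bidegree of `t b b b` which is killed is the target of a `d₅`. -/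
theorem d5_of_bd {h : ℕ} (hh : 1 ≤ h) (H : Cyc D 3 h i) {y : Cob.wt Laz 7 20}
    (hy : Bd D U i 0 y) : Bd D U i 2 y ∧
      ∃ x : Cob.wt Laz 2 18, Cob.d 2 x.1 ∈ IC 3 h 3 ∧ Dif D U i x y := by
  have G : Gen D U i (IC 3 h) := gen_of_cyc H
  have h1 : Bd D U i 1 y := bd_succ_of_algVan H hy (by norm_num) fun w₀ hw =>
    algVan_line hh fun h => by omega
  have h2 : Bd D U i 2 y := G.bd_succ_of_even h1 (by norm_num) 3 rfl
  obtain ⟨x, hx, hd⟩ := G.hit h2 (by norm_num) (w₀ := 18) (by norm_num)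
  exact ⟨h2, x, hx (by norm_num), hd⟩

/-- **The Toda differential** `d₅ x = t b b b`. -/
theorem Seed.d5 {h : ℕ} (hh : 1 ≤ h) (H : Cyc D 3 h i) :
    ∃ x : Cob.wt Laz 2 18, Cob.d 2 x.1 ∈ IC 3 h 3 ∧ Dif D U i x (P236S.tbbb ht) :=
  (d5_of_bd hh H (S.tbbb ht)).2

theorem Seed.b7_one {𝔞 : ∀ s : ℕ, Ideal (Cob Laz s)} (G : Gen D U i 𝔞) :
    Bd D U i 1 (bP ht 7) :=
  G.bd_succ_of_even (S.b7 ht) (by norm_num) 7 rfl

/-- **The differential `d₉ x = b^7`**, if the classes of filtration one are permanent cycles. -/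
theorem Seed.d9 {h : ℕ} (hh : 1 ≤ h) (H : Cyc D 3 h i)
    (h1 : ∀ x : Cob.wt Laz 1 36, Cob.d 1 x.1 ∈ IC 3 h 2 → Perm D U i x) :
    Bd D U i 5 (bP ht 7) ∧
      ∃ x : Cob.wt Laz 5 38, Cob.d 5 x.1 ∈ IC 3 h 6 ∧ Dif D U i x (bP ht 7) := by
  have G : Gen D U i (IC 3 h) := gen_of_cyc H
  have h2 : Bd D U i 2 (bP ht 7) := G.bd_succ (S.b7_one ht G) (by norm_num) fun w₀ x hx hd => by
    obtain rfl : w₀ = 36 := by have := hd.deg; omega
    exact (h1 x hx).bd hd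
  have h3 : Bd D U i 3 (bP ht 7) := G.bd_succ_of_even h2 (by norm_num) 6 rfl
  have h4 : Bd D U i 4 (bP ht 7) := bd_succ_of_algVan H h3 (by norm_num) fun w₀ hw =>
    algVan_line hh fun h => by omega
  have h5 : Bd D U i 5 (bP ht 7) := G.bd_succ_of_even h4 (by norm_num) 5 rfl
  obtain ⟨x, hx, hd⟩ := G.hit h5 (by norm_num) (w₀ := 38) (by norm_num)
  exact ⟨h5, x, hx (by norm_num), hd⟩

end Three

end Vale.Agent.P236S
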