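import Vale.Agent.P236S.Bock
import Vale.Agent.P236K.Spec
import Vale.Agent.P257.H314.Line
import Vale.Agent.P257.H314.Assemble

/-!
# P236, block EX: from the output of the engine to homotopy classes

* `Core D U q j`: a class `θ` with `q θ = 0`, with a lift to the second stage of the `MU` tower of
  the sphere whose cocycle reduces to `± b_j`;
* `core_of_engOut3 : EngOut3 j → Core 3 j`, `core_of_engOut : EngOut j → Core 9 j`.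
-/

open CategoryTheory MonoidalCategory Limits Pretriangulated MonObj

set_option linter.unusedSectionVars false

universe v u

namespace Vale.Agent.P236S

open Vale.Agent.P251 Vale.Agent.P251.T Vale.Agent.P251.F Vale.Agent.P251.I
  Vale.Agent.P251.M Vale.Agent.P257.H314 Vale.Agent.P257.H712 Vale.Agent.P257 Vale.Agent.P251.B
  Vale.Agent.P236K Vale.Agent.P236Z
open Vale.Agent.P251.S hiding IC
open Vale.Agent.P236L (Dif Bd Perm Gen sM cls coch gen_of_cyc gen_of_moore)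

section Couples

variable {C Cp : Couple.{u, v}}

/-- If all classes of filtration `≥ a` die in filtration `r`, then so do all elements. -/
lemma proj_eq_zero_of_null {m : ℤ} {r a N : ℕ} (hr : r ≤ a)
    (hN : ∀ s, N ≤ s → ∀ y : C.D s m, y = 0)
    (H : ∀ s, a ≤ s → ∀ y : C.D s m, Null C r (C.j s m y)) (s : ℕ) (hs : a ≤ s)
    (y : C.D s m) : C.proj m (hr.trans hs) y = 0 := by
  induction hk : N - s generalizing s with
  | zero => rw [hN s (by omega) y, C.proj_zero']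
  | succ k ih =>
    obtain ⟨_, c, hc, hj⟩ := H s hs y
    obtain ⟨e, he⟩ := C.exact_j s m (y - c) (by rw [map_sub, hj, sub_self])
    have h1 := ih (s + 1) (by omega) e (by omega)
    rw [C.proj_succ m (hr.trans hs), he, proj_sub, hc, sub_zero] at h1
    exact h1

/-- A differential whose target is the Bockstein of a permanent cycle. -/
theorem Bock.k_eq {q : ℤ} (B : Bock C Cp q) {s t : ℕ} {n m : ℤ} (h : n = m + 1) (hs : s + 1 ≤ t)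
    {x : Cp.E s n} {z : C.E t n} {y : C.E (t + 1) m} (hz : C.d t n m h z = q • y)
    {ζ : Cp.D t n} (hζ : Cp.j t n ζ = B.fE t n z) {c : Cp.D (t + 1) m}
    (hc : Cp.proj m (by omega) c = Cp.k s n m h x) (hj : Cp.j (t + 1) m c = B.fE (t + 1) m y)
    (hv : ∀ e : Cp.D (t + 2) m, Cp.proj m (show s + 1 ≤ t + 2 by omega) e = 0) :
    ∃ e : C.D (s + 1) m, q • e = 0 ∧ Cp.k s n m h x = B.fD (s + 1) m e := by
  obtain ⟨g, hg, hi⟩ := B.lift h hz hζ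
  obtain ⟨e, he⟩ := Cp.exact_j (t + 1) m (c - B.fD _ _ g) (by
    rw [map_sub, hj, B.j_comm, hg, sub_self])
  have h1 := hv e
  rw [Cp.proj_succ m (show s + 1 ≤ t + 1 by omega), he, proj_sub, hc, sub_eq_zero,
    Red.proj_fD] at h1
  refine ⟨_, ?_, h1⟩
  rw [C.proj_succ m hs, hi, ← proj_zsmul, smul_neg, B.smul_δ, neg_zero, C.proj_zero']

end Couples

variable {T : Type u} [Category.{v} T] [Preadditive T] [HasZeroObject T]
    [HasShift T ℤ] [∀ n : ℤ, (shiftFunctor T n).Additive] [Pretriangulated T]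
    [MonoidalCategory T] [SymmetricCategory T] [TensorTriangulated T] [HasCoproducts.{0} T]
    (D : MUData T) (U : UnitCof D.R)

lemma mapV_redV {V V' : T} {i : 𝟙_ T ⟶ V} {i' : 𝟙_ T ⟶ V'} (g : V ⟶ V') {c : ℤ}
    (hg : i ≫ g = c • i') (s : ℕ) (n : ℤ) (y : (CS D U).D s n) :
    (mapV D U g).fD s n ((redV D U i).fD s n y) = c • (redV D U i').fD s n y := by
  have key : ∀ {A W : T} (f : A ⟶ W), (f ≫ (ρ_ W).inv ≫ (W ◁ i)) ≫ (W ◁ g) =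
      c • (f ≫ (ρ_ W).inv ≫ (W ◁ i')) := by
    intro A W f
    have h3 : W ◁ (c • i') = c • (W ◁ i') := (tensorLeft W).map_zsmul
    rw [Category.assoc, Category.assoc, ← MonoidalCategory.whiskerLeft_comp, hg, h3,
      Preadditive.comp_zsmul, Preadditive.comp_zsmul]
  exact key (A := (𝟙_ T)⟦n + (s : ℤ)⟧) (W := U.cobar.B s (𝟙_ T)) y

/-- A class `θ` with `q θ = 0` and a lift `t` to the second stage of the tower, whose cocycle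
reduces to `± b_j`. -/
def Core (q : ℤ) (j : ℕ) : Prop :=
  ∃ (w : ℤ) (hw : w + 1 = 2 * ((3 ^ (j + 1) : ℕ) : ℤ)) (θ : (stdEven T).S w ⟶ 𝟙_ T)
    (t : (stdEven T).S (2 * ((3 ^ (j + 1) : ℕ) : ℤ)) ⟶ U.cobar.B 2 (𝟙_ T))
    (x : Co 2 (3 ^ (j + 1))), q • θ = 0 ∧
    t ≫ U.bd 1 (𝟙_ T) ≫ (U.bd 0 (𝟙_ T))⟦(1 : ℤ)⟧' =
      (Dt.eS hw).hom ≫ (θ⟦(1 : ℤ)⟧')⟦(1 : ℤ)⟧' ∧
    t ≫ unitMap D.R _ = D.evw 2 _ x ≫ Dt.qq D U 2 ∧ Cob.d 2 x.1 = 0 ∧ Lead j x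

variable {D U}

/-- From the couple to morphisms. -/
theorem exists_theta {q : ℤ} {w w' m : ℤ} (hw : w + 1 = w') (h : m + ((2 : ℕ) : ℤ) = 2 * w')
    (x : Cob.wt Laz 2 w') (c : (CS D U).D 2 m) (hj : (CS D U).j 2 m c = cls0 D U 2 w' m h x)
    (hq : q • (CS D U).i 1 m c = 0) :
    ∃ (θ : (stdEven T).S w ⟶ 𝟙_ T) (t : (stdEven T).S w' ⟶ U.cobar.B 2 (𝟙_ T)), q • θ = 0 ∧
      t ≫ U.bd 1 (𝟙_ T) ≫ (U.bd 0 (𝟙_ T))⟦(1 : ℤ)⟧' =
        (Dt.eS hw).hom ≫ (θ⟦(1 : ℤ)⟧')⟦(1 : ℤ)⟧' ∧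
      t ≫ unitMap D.R _ = D.evw 2 w' x ≫ Dt.qq D U 2 := by
  let t : (stdEven T).S w' ⟶ U.cobar.B 2 (𝟙_ T) :=
    (sM T w').hom ≫ (U.tow (𝟙_ T)).eD (𝟙_ T) h c
  obtain ⟨θ₁, h1⟩ := (shiftFunctor T (1 : ℤ)).map_surjective
    ((Dt.eS hw).inv ≫ t ≫ U.bd 1 (𝟙_ T) ≫ (U.bd 0 (𝟙_ T))⟦(1 : ℤ)⟧')
  obtain ⟨θ, rfl⟩ : ∃ θ : (stdEven T).S w ⟶ 𝟙_ T, θ⟦(1 : ℤ)⟧' = θ₁ :=
    (shiftFunctor T (1 : ℤ)).map_surjective θ₁
  refine ⟨θ, t, ?_, by rw [h1, Iso.hom_inv_id_assoc], ?_⟩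
  · have h2 : q • (t ≫ U.bd 1 (𝟙_ T)) = 0 := by
      have h3 := (U.tow (𝟙_ T)).eD_i (𝟙_ T) (rfl : m + ((1 : ℕ) : ℤ) = _) h
        (by push_cast at h ⊢; omega) c
      have h4 : q • ((U.tow (𝟙_ T)).eD (𝟙_ T) h c ≫ (U.tow (𝟙_ T)).c 1) = 0 := by
        rw [← h3, ← map_zsmul, ← map_zsmul, hq, map_zero, map_zero]
      have h5 := congrArg ((sM T w').hom ≫ ·) h4
      simp only [Preadditive.comp_zsmul, comp_zero, ← Category.assoc] at h5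
      exact h5
    apply (shiftFunctor T (1 : ℤ)).map_injective
    apply (shiftFunctor T (1 : ℤ)).map_injective
    rw [Functor.map_zsmul, Functor.map_zsmul, h1, Functor.map_zero, Functor.map_zero,
      ← Preadditive.comp_zsmul, ← Category.assoc t, ← Preadditive.zsmul_comp, h2, zero_comp,
      comp_zero]
  · have h2 := (U.tow (𝟙_ T)).eE_j (𝟙_ T) h c
    rw [hj, eE_cls0] at h2
    have h3 := congrArg ((sM T w').hom ≫ ·) h2
    simp only [Category.assoc, Iso.hom_inv_id_assoc] at h3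
    exact (Category.assoc _ _ _).trans (h3.symm.trans (Category.assoc _ _ _))

lemma d_eq_zero_of_smul {s : ℕ} {q : ℤ} (hq : q ≠ 0) {x : Cob Laz s} {y : Cob Laz (s + 1)}
    (h : Cob.d s x = q • y) : Cob.d (s + 1) y = 0 := by
  have h1 := Cob.d_d x
  rw [h, map_zsmul, zsmul_eq_mul] at h1
  exact (mul_eq_zero.1 h1).resolve_left (Int.cast_ne_zero.2 hq)

/-- The Bockstein of a permanent cycle. -/
theorem core_of_perm {V : T} {q : ℤ} (hq : q ≠ 0) {i : 𝟙_ T ⟶ V} {δ : V ⟶ (𝟙_ T)⟦(1 : ℤ)⟧}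
    (hC : Triangle.mk (q • 𝟙 (𝟙_ T)) i δ ∈ distTriang T) {𝔞 : ∀ s : ℕ, Ideal (Cob Laz s)}
    (G : Gen D U i 𝔞) {j : ℕ} {x : Co 1 (3 ^ (j + 1))} {x₂ : Co 2 (3 ^ (j + 1))}
    (H : Perm D U i x) (hx : Cob.d 1 x.1 = q • x₂.1) (hl : Lead j x₂) : Core D U q j := by
  have h' : 2 * (2 * ((3 ^ (j + 1) : ℕ) : ℤ)) - 2 + ((2 : ℕ) : ℤ) =
      2 * (2 * ((3 ^ (j + 1) : ℕ) : ℤ)) := by push_cast; ring
  obtain ⟨c, hj, hc⟩ := perm_bock_int hC G H hx h'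
  obtain ⟨θ, t, h1, h2, h3⟩ := exists_theta (w := 2 * ((3 ^ (j + 1) : ℕ) : ℤ) - 1)
    (by ring) h' x₂ c hj hc
  exact ⟨_, _, θ, t, x₂, h1, h2, h3, d_eq_zero_of_smul hq hx, hl⟩

section Three

instance : Fact (Nat.Prime 3) := ⟨Nat.prime_three⟩

variable {V : T} {i : 𝟙_ T ⟶ V} {δ : V ⟶ (𝟙_ T)⟦(1 : ℤ)⟧}
  (hC : Triangle.mk ((3 : ℤ) • 𝟙 (𝟙_ T)) i δ ∈ distTriang T)

include hC

lemma gen_three : Gen D U i (IC 3 1) :=
  gen_of_cyc (cyc_modP D (p := 3) (by norm_num) hC)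

/-- Elements of order three. -/
theorem core_of_engOut3 {j : ℕ} (H : EngOut3 D U i j) : Core D U 3 j := by
  obtain ⟨x, x₂, hx, H, hl⟩ := H
  exact core_of_perm (by norm_num) hC (gen_three hC) H hx hl

/-- Cocycles of odd weight are boundaries. -/
lemma bd_of_odd {s t : ℕ} {w k : ℤ} (hw : w = 2 * k + 1) (ht : t ≤ s)
    (z : Cob.wt Laz (s + 1) w) (hz : Cob.d (s + 1) z.1 ∈ IC 3 1 (s + 2)) : Bd D U i t z := by
  obtain ⟨y, hy, h⟩ := algVan_line (p := 3) (h := 1) le_rfl (s := s + 1) (w := w)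
    (by rintro ⟨⟨l, hl⟩, -⟩; push_cast at hl; omega) z.1 z.2 hz
  exact (P236L.bd_d (⟨y, hy⟩ : Cob.wt Laz s w) ht).congr (gen_three hC)
    (by rw [Cob.coe_dwt, ← neg_sub]; exact neg_mem h)

variable [MonoidalClosed T] [IsTriangulated T] [HasProducts.{0} T] [StableCat T]

/-- Elements of filtration `≥ 7` die in filtration `5`. -/
lemma proj_five {T₀ : ℕ} {m : ℤ} (hm : m = 4 * T₀ - 2)
    (H : ∀ (s W : ℕ) (y : Co s W), 10 ≤ s → 4 * W + 2 = 4 * T₀ + s → IsZ y → Perm D U i y →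
      Bd D U i 5 y) (e : (CV U V).D 7 m) : (CV U V).proj m (show 5 ≤ 7 by norm_num) e = 0 := by
  have G : Gen D U i (IC 3 1) := gen_three hC
  refine proj_eq_zero_of_null (N := m.toNat + 1) (show 5 ≤ 7 by norm_num)
    (fun s hs y => H314.D_eq_zero U (isST_one (D := D) (p := 3) (by norm_num) hC).bigCell
      (by omega) y) (fun s hs y => ?_) 7 le_rfl e
  rcases Int.even_or_odd' (m + (s : ℤ)) with ⟨w, hw | hw⟩
  · have key : ∀ z : Cob.wt Laz s w, Bd D U i 5 z → cls D U i s w m hw z = (CV U V).j s m y →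
        Null (CV U V) 5 ((CV U V).j s m y) := fun z hz h => by
      obtain ⟨c, hc, hj⟩ := hz.elim hw (by omega)
      exact ⟨_, c, hc, hj.trans h⟩
    obtain ⟨z, hz, h⟩ := G.exists_cocycle hw _ ((CV U V).isCocycle_j y)
    refine key z ?_ h
    rcases Int.even_or_odd' w with ⟨k, hk | hk⟩
    · obtain ⟨W, rfl⟩ : ∃ W : ℕ, k = W := ⟨k.toNat, by omega⟩
      subst hk
      exact H s W z (by omega) (by omega) hz ⟨m, hw, y, h.symm⟩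
    · obtain ⟨s, rfl⟩ : ∃ s', s = s' + 1 := ⟨s - 1, by omega⟩
      exact bd_of_odd hC hk (by omega) z hz
  · rw [G.E_odd hw ((CV U V).j s m y)]
    exact ⟨by omega, 0, Couple.proj_zero' _ _ _, map_zero _⟩

/-- Elements of order dividing nine. -/
theorem core_of_dif {j : ℕ} {x : Co 1 (3 ^ (j + 1))} {x₂ : Co 2 (3 ^ (j + 1))}
    {z : Co 5 (3 ^ (j + 1) + 1)} {y : Co 6 (3 ^ (j + 1) + 1)} (hx : Cob.d 1 x.1 = (3 : ℤ) • x₂.1)
    (hz : Cob.d 5 z.1 = (3 : ℤ) • y.1) (hd : Dif D U i x y) (hp : Perm D U i z) (hl : Lead j x₂)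
    (H : ∀ (s W : ℕ) (y : Co s W), 10 ≤ s → 4 * W + 2 = 4 * 3 ^ (j + 1) + s → IsZ y →
      Perm D U i y → Bd D U i 5 y) : Core D U 9 j := by
  have G : Gen D U i (IC 3 1) := gen_three hC
  obtain ⟨T₀, hT⟩ : ∃ T₀ : ℤ, T₀ = ((3 ^ (j + 1) : ℕ) : ℤ) := ⟨_, rfl⟩
  have hn : 4 * T₀ - 1 = 4 * T₀ - 2 + 1 := by ring
  have h1 : 4 * T₀ - 1 + ((1 : ℕ) : ℤ) = 2 * (2 * ((3 ^ (j + 1) : ℕ) : ℤ)) := by
    rw [← hT]; push_cast; ring
  have h5 : 4 * T₀ - 1 + ((5 : ℕ) : ℤ) = 2 * (2 * ((3 ^ (j + 1) + 1 : ℕ) : ℤ)) := by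
    rw [Nat.cast_add, ← hT]; push_cast; ring
  have h6 : 4 * T₀ - 2 + ((5 + 1 : ℕ) : ℤ) = 2 * (2 * ((3 ^ (j + 1) + 1 : ℕ) : ℤ)) := by
    rw [Nat.cast_add (3 ^ (j + 1)), ← hT]; push_cast; ring
  obtain ⟨c, hc, hj⟩ := hd.elim hn h1 h6 (by norm_num)
  obtain ⟨ζ, hζ⟩ := hp.elim h5
  obtain ⟨e, he, hk⟩ := (bockV hC G).k_eq hn (show 1 + 1 ≤ 5 by norm_num)
    (cls0_d_eq hz hn h5 h6) (ζ := ζ) (by rw [bockV_fE]; exact hζ) hc
    (by rw [bockV_fE]; exact hj) fun e => by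
      rw [← proj_proj _ (show 1 + 1 ≤ 5 by norm_num) (show 5 ≤ 7 by norm_num),
        proj_five hC (by rw [hT]) H e, Couple.proj_zero']
  obtain ⟨W, i', δ', hW⟩ := P251.H.exists_cone (((3 : ℕ) : ℤ) ^ 2 • 𝟙 (𝟙_ T))
  have G' := gen_of_moore (D := D) (U := U) (p := 3) (by norm_num) hW
  obtain ⟨φ, hφ, -⟩ : ∃ φ : V ⟶ W, i ≫ φ = ((3 : ℤ) • 𝟙 (𝟙_ T)) ≫ i' ∧
      δ ≫ (𝟙 (𝟙_ T))⟦(1 : ℤ)⟧' = φ ≫ δ' :=
    complete_distinguished_triangle_morphism _ _ hC hW (𝟙 _) ((3 : ℤ) • 𝟙 _) (by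
      change ((3 : ℤ) • 𝟙 (𝟙_ T)) ≫ ((3 : ℤ) • 𝟙 (𝟙_ T)) = 𝟙 _ ≫ (((3 : ℕ) : ℤ) ^ 2 • 𝟙 (𝟙_ T))
      rw [Preadditive.zsmul_comp, Category.id_comp, Category.id_comp, smul_smul]
      norm_num)
  rw [Preadditive.zsmul_comp, Category.id_comp] at hφ
  have hk' : (CV U W).k 1 _ _ hn (cls D U i' 1 _ _ h1 ((3 : ℤ) • x)) = 0 := by
    rw [← mapV_cls D U φ hφ, Red.k_comm, hk]
    refine (mapV_redV D U φ hφ _ _ e).trans ?_
    rw [← map_zsmul, he, map_zero]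
  obtain ⟨ξ, hξ⟩ := (CV U W).exact_k 1 _ _ hn _ hk'
  have h9 : ((3 : ℕ) : ℤ) ^ 2 = 9 := by norm_num
  rw [← h9]
  refine core_of_perm (by norm_num) hW G' (x := (3 : ℤ) • x) ⟨_, h1, ξ, hξ⟩ ?_ hl
  rw [AddSubgroup.coe_zsmul, map_zsmul, hx, smul_smul]
  norm_num

theorem core_of_engOut {j : ℕ} (H : EngOut D U i j) : Core D U 9 j := by
  obtain ⟨⟨x, x₂, z, y, hx, hz, hd, hp, hl⟩, H⟩ := H
  exact core_of_dif hC hx hz hd hp hl fun s W y h1 h2 _ h3 => H s W y h1 h2 h3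

end Three

end Vale.Agent.P236S
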