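import Vale.Agent.P236S.Ex
import Vale.Agent.P236H.Cmp

/-!
# P236, block EX: the Adams side

* `af_of_engOut1`: the vanishing of permanent cycles in `(2, 9)` implies that all of `π_34` has Adams filtration three;
* `detects_of_core`: `Core q j` gives a class killed by `q` which is detected by `b_j`.
-/

open CategoryTheory MonoidalCategory Limits Pretriangulated MonObj

set_option linter.unusedSectionVars false

universe v u

namespace Vale.Agent.P236S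

open Vale.Agent.P251 Vale.Agent.P251.T Vale.Agent.P251.F Vale.Agent.P251.I
  Vale.Agent.P251.M Vale.Agent.P257.H314 Vale.Agent.P257.H712 Vale.Agent.P257 Vale.Agent.P251.B
  Vale.Agent.P236K Vale.Agent.P236Z
open Vale.Agent.P251.S hiding IC
open Vale.Agent.P236L (Dif Bd Perm Gen sM cls coch)

section Gen

variable {T : Type u} [Category.{v} T] [Preadditive T] [HasZeroObject T]
    [HasShift T ℤ] [∀ n : ℤ, (shiftFunctor T n).Additive] [Pretriangulated T]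
    [MonoidalCategory T] [SymmetricCategory T] [TensorTriangulated T] [HasCoproducts.{0} T]
    {D : MUData T} {U : UnitCof D.R}

/-- From morphisms to the couple. -/
theorem perm_of_lift {M : T} {i : 𝟙_ T ⟶ M} {s : ℕ} {w : ℤ}
    (t : (stdEven T).S w ⟶ U.cobar.B s (𝟙_ T) ⊗ M) (x : Cob.wt Laz s w)
    (ht : t ≫ (unitMap D.R _ ▷ M) = D.evw s w x ≫ Dt.qq D U s ≫ Dt.red i _) : Perm D U i x := by
  have h : 2 * w - s + (s : ℤ) = 2 * w := by ring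
  let X := (U.tow (𝟙_ T)).map (tensorRight M)
  refine ⟨_, h, (X.eD (𝟙_ T) h).symm ((sM T w).inv ≫ t), (X.eE (𝟙_ T) h).injective ?_⟩
  refine (X.eE_j (𝟙_ T) h _).trans (Eq.trans ?_
    (U.eT_qE (𝟙_ T) (tensorRight M) (𝟙_ T) h (coch D U i s w x)).symm)
  rw [AddEquiv.apply_symm_apply]
  change ((sM T w).inv ≫ t) ≫ (unitMap D.R _ ▷ M) = ((sM T w).inv ≫
    (D.evw s w x ≫ (D.qAm U (s + 1)).inv) ≫ Dt.red i _) ≫ (U.cobar.q s (𝟙_ T) ▷ M)
  simp only [Category.assoc]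
  rw [ht, ← Dt.red_nat, Dt.qq, Category.assoc]

variable [MonoidalClosed T] [IsTriangulated T] [HasProducts.{0} T] [StableCat T]

/-- All of `π_34` has Adams filtration three. -/
theorem af_of_engOut1 {V : T} {i : 𝟙_ T ⟶ V} {δ : V ⟶ (𝟙_ T)⟦(1 : ℤ)⟧}
    (hC : Triangle.mk ((3 : ℤ) • 𝟙 (𝟙_ T)) i δ ∈ distTriang T)
    (hE : ∀ x : Co 2 9, IsZ x → Perm D U i x → P236K.IsB x)
    {H : T} [MonObj H] [IsCommMonObj H] (hH : Tr.IsHF 3 η[H]) {w : ℤ} (hw : w = 17)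
    (θ : (stdEven T).S w ⟶ 𝟙_ T) : Tr.AF η[H] 3 θ := by
  have h3 : (3 : ℤ) • η[H] = 0 := (hH.ord 3).2 dvd_rfl
  have hw' : w + 1 = 2 * ((9 : ℕ) : ℤ) := by rw [hw]; norm_num
  obtain ⟨k, hk⟩ := Dt.descend h3 (𝟙_ T)
  obtain ⟨M, i', δ', hM⟩ := P251.H.exists_cone ((3 : ℤ) ^ (k + 1) • 𝟙 (𝟙_ T))
  obtain ⟨t, x, x', hx, ht, ht'⟩ := Dt.exists_lift D U (p := 3) (by norm_num) hM hw' (by
    rw [hw]; norm_num) θ
  obtain ⟨φ, hφ, -⟩ : ∃ φ : M ⟶ V, i' ≫ φ = 𝟙 (𝟙_ T) ≫ i ∧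
      δ' ≫ ((3 : ℤ) ^ k • 𝟙 (𝟙_ T))⟦(1 : ℤ)⟧' = φ ≫ δ :=
    complete_distinguished_triangle_morphism _ _ hM hC ((3 : ℤ) ^ k • 𝟙 _) (𝟙 _) (by
      change ((3 : ℤ) ^ (k + 1) • 𝟙 (𝟙_ T)) ≫ 𝟙 _ = ((3 : ℤ) ^ k • 𝟙 (𝟙_ T)) ≫ ((3 : ℤ) • 𝟙 (𝟙_ T))
      rw [Preadditive.zsmul_comp, Preadditive.zsmul_comp, Category.id_comp, Category.id_comp,
        smul_smul, pow_succ])
  have h1 := perm_map φ (c := 1) (i' := i) (by rw [hφ, Category.id_comp, one_smul])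
    (perm_of_lift t x ht')
  rw [one_smul] at h1
  have hz : IsZ x := by
    have h4 : Cob.d 2 x.1 = ((3 : ℕ) : ℤ) ^ (k + 1) • x'.1 := congrArg Subtype.val hx
    have h5 : ((3 : ℕ) : Laz) ∈ Laz.I 3 1 := by
      have h6 := vv_mem_Ih (p := 3) (h := 1) (i := 0) (by omega) Laz.univ
      rwa [vv_zero] at h6
    have h6 := Ideal.mem_map_of_mem (MvPolynomial.C : Laz →+* Cob Laz 3) h5
    rw [map_natCast] at h6
    rw [IsZ, h4, pow_succ', mul_smul, zsmul_eq_mul, Int.cast_natCast]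
    exact Ideal.mul_mem_right _ _ h6
  obtain ⟨y, hy⟩ := hE x hz h1
  have h2 := (Dt.af3_of_mem D hH.conc U (p := 3) h3 i' t x y hy ht').comp (Dt.eS hw').inv (𝟙 _)
  rw [ht, Category.comp_id, Iso.inv_hom_id_assoc] at h2
  exact (hk _ (by omega) M i' δ' hM _ θ h2.of_shift.of_shift).af

end Gen

open Vale.Agent.P251.St Vale.Agent.P251.St.SHCat Vale.Agent.P236Z.St Vale.Agent.P236H.St

variable {T : SHCat} {H : RingSp T} (A : AdamsTower H.unit) {D : MUData T.C}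
  {F : SpaceFunctor T.C} {e : F.S.obj CCF ≅ (stdEven T.C).L}

/-- Detection by `b_j`. -/
theorem detects_of_core (hU : MUUniv e D) (hH : IsHF 3 H.unit)
    {ξ : Hom (sph T 4) (ten H.obj H.obj)} (hξ : ξ ≠ 0) {U : UnitCof D.R} {q : ℤ} {j : ℕ}
    (h : Core D U q j) :
    ∃ θ : Hom (sph T (4 * 3 ^ (j + 1) - 2)) T.one, Detects A ξ j θ ∧ q • θ = 0 := by
  obtain ⟨w, hw, θ, t, x, hq, h1, h2, h3, ε, y, hε, h4⟩ := h
  let c : sph T (4 * 3 ^ (j + 1) - 2) ≅ (stdEven T.C).S w :=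
    eqToIso (by congr 2; push_cast at hw; omega) ≪≫ ((stdEven T.C).sphIso (Iso.refl _) w).symm
  obtain ⟨ε', hε', rfl⟩ : ∃ ε' : ℤ, (ε' = 1 ∨ ε' = -1) ∧ ε = ε' := by
    have : ∀ a : ZMod 3, a ≠ 0 → a = 1 ∨ a = -1 := by decide
    rcases this ε hε with rfl | rfl
    · exact ⟨1, Or.inl rfl, by simp⟩
    · exact ⟨-1, Or.inr rfl, by simp⟩
  refine ⟨c.hom ≫ θ, P236H.detects A hU hH hξ U hw (by push_cast; ring) θ t x 0 h1
    (by rw [smul_zero, add_zero]; exact h2) (h := 0) (by rw [h3]; exact zero_mem _) hε'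
    (y := y) (by rw [h4, Int.cast_smul_eq_zsmul]) c, ?_⟩
  rw [← Preadditive.comp_zsmul, hq, comp_zero]

end Vale.Agent.P236S
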