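import Vale.Agent.P236S.Dual

/-!
# P236, block ORD, steps 0 and 5: the product `θ θ θ'` and its extension

* `Lft U s h g₀ e`: `g₀ : P⟦n⟧ ⟶ 𝟙` has a lift to filtration `s` with class `e`;
* `MooN W n`: `W` is a Moore object with bottom cell in dimension `n`;
* `ordA`: the map dual to a permanent cycle `x` with `x (β x) ^ 2 = 0`, and the extension of the
  product by a map of filtration two; `ordB`: the cocycle of a map out of a Moore object.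
-/

open CategoryTheory MonoidalCategory Limits Pretriangulated MonObj

set_option linter.unusedSectionVars false

universe v u

namespace Vale.Agent.P236S

open Vale.Agent.P251 Vale.Agent.P251.T Vale.Agent.P251.F Vale.Agent.P251.I
  Vale.Agent.P251.M Vale.Agent.P257.H314 Vale.Agent.P257.H712 Vale.Agent.P257 Vale.Agent.P251.B
  Vale.Agent.P236K Vale.Agent.P236Z Vale.Agent.P251.H Vale.Agent.P257.H820
open Vale.Agent.P251.S hiding IC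
open Vale.Agent.P236L
open Vale.Agent.P236R (Moo Sph sph_self)

variable {T : Type u} [Category.{v} T] [Preadditive T] [HasZeroObject T]
    [HasShift T ℤ] [∀ n : ℤ, (shiftFunctor T n).Additive] [Pretriangulated T]
    [MonoidalCategory T] [SymmetricCategory T] [TensorTriangulated T]

section Gen

lemma null_shift {H : T} [MonObj H] {A B : T} {f : A ⟶ B} (h : f ≫ unitMap H B = 0) (k : ℤ) :
    f⟦k⟧' ≫ unitMap H (B⟦k⟧) = 0 := by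
  rw [← cancel_mono (csh H k B).hom, Category.assoc, unitMap_csh, ← Functor.map_comp, h,
    Functor.map_zero, zero_comp]

lemma af_of_shift {H : T} {u : 𝟙_ T ⟶ H} {s : ℕ} {A B : T} {f : A ⟶ B} (k : ℤ)
    (h : Tr.AF u s (f⟦k⟧')) : Tr.AF u s f := by
  refine Tr.AF.of_whiskerRight (((sph_self k).tensor (sph_self (-k)) (add_neg_cancel k)).nonempty_iso
    P236R.sph_unit).some ?_
  have e : f ▷ ((𝟙_ T)⟦k⟧) = (tensorSph k A).hom ≫ f⟦k⟧' ≫ (tensorSph k B).inv := by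
    rw [← tensorSph_naturality_assoc, Iso.hom_inv_id, Category.comp_id]
  rw [e]
  exact (h.post _).pre _

lemma desc_shift {A B C Y : T} {ψ : A ⟶ B} {e : B ⟶ C} {q : C ⟶ A⟦(1 : ℤ)⟧} (h : Dist ψ e q)
    (n : ℤ) (f : B⟦n⟧ ⟶ Y) (hf : ψ⟦n⟧' ≫ f = 0) : ∃ g : C⟦n⟧ ⟶ Y, e⟦n⟧' ≫ g = f := by
  obtain ⟨g, hg⟩ : ∃ g : C⟦n⟧ ⟶ Y, f = (n.negOnePow • e⟦n⟧') ≫ g :=
    Triangle.yoneda_exact₂ _ (Triangle.shift_distinguished _ h n) f (by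
      change (n.negOnePow • ψ⟦n⟧') ≫ f = 0
      rw [Linear.units_smul_comp, hf, smul_zero])
  exact ⟨n.negOnePow • g, by rw [hg, Linear.units_smul_comp, Linear.comp_units_smul]⟩

lemma tens_sph {A : T} {n : ℤ} (θ : (𝟙_ T)⟦n⟧ ⟶ 𝟙_ T) (g : A ⟶ 𝟙_ T) :
    (θ ⊗ₘ g) ≫ (λ_ (𝟙_ T)).hom =
      ((β_ _ A).hom ≫ (tensorSph n A).hom) ≫ g⟦n⟧' ≫ θ := by
  rw [Category.assoc, ← tensorSph_naturality_assoc, ← BraidedCategory.braiding_naturality_right_assoc,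
    tensorSph_unit, braiding_leftUnitor_assoc, tensorHom_def', Category.assoc, unitors_equal,
    rightUnitor_naturality]

lemma sh_zero {X Y : T} (f : X ⟶ Y) (k : ℤ) (h : 0 + k = k) :
    sh 0 k k h ((shiftFunctorZero T ℤ).hom.app X ≫ f) = f⟦k⟧' := by
  rw [Mq.sh_apply, shiftFunctorAdd'_zero_add_hom_app, ← Functor.map_comp,
    Iso.inv_hom_id_app_assoc]

lemma sh_id (X : T) {t k t' : ℤ} (h : t + k = t') :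
    sh t k t' h (𝟙 (X⟦t⟧)) ≫ (shiftFunctorAdd' T t k t' h).inv.app X = 𝟙 (X⟦t'⟧) := by
  rw [Mq.sh_apply, CategoryTheory.Functor.map_id, Category.assoc]
  exact (congrArg _ (Category.id_comp _)).trans (Iso.hom_inv_id_app _ _)

lemma sh_sh {P : T} (X : Tow T) {s : ℕ} {n t t' t'' : ℤ} (h : n + (s : ℤ) = t)
    (h' : t + 1 = t') (h'' : t' + 1 = t'') (h2 : n + ((s + 1 + 1 : ℕ) : ℤ) = t'')
    (y : (X.couple P).D (s + 1 + 1) n) :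
    sh t' 1 t'' h'' (sh t 1 t' h' (X.eD P h ((X.couple P).i s n ((X.couple P).i (s + 1) n y)))) =
      X.eD P h2 y ≫ X.c (s + 1) ≫ (X.c s)⟦(1 : ℤ)⟧' := by
  have h1 : n + ((s + 1 : ℕ) : ℤ) = t' := by rw [← h', ← h]; push_cast; ring
  rw [X.eD_i P h h1 h', sh_comp, X.eD_i P h1 h2 h'', Category.assoc]

/-- `W` is a Moore object with bottom cell in dimension `n`. -/
def MooN (W : T) (n : ℤ) : Prop :=
  ∃ (L X : T) (i : L ⟶ X) (δ : X ⟶ L⟦(1 : ℤ)⟧) (l k : ℤ), Moo i δ ∧ Sph L l ∧ l + k = n ∧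
    Nonempty (W ≅ X⟦k⟧)

lemma mooN_of {L X : T} {i : L ⟶ X} {δ : X ⟶ L⟦(1 : ℤ)⟧} (h : Moo i δ) {l : ℤ} (hL : Sph L l) :
    MooN X l := ⟨L, X, i, δ, l, 0, h, hL, add_zero l, ⟨((shiftFunctorZero T ℤ).app X).symm⟩⟩

lemma MooN.shift {W : T} {n : ℤ} (h : MooN W n) (k : ℤ) {m : ℤ} (hm : n + k = m) :
    MooN (W⟦k⟧) m := by
  obtain ⟨L, X, i, δ, l, k', h1, h2, h3, ⟨a⟩⟩ := h
  exact ⟨L, X, i, δ, l, k' + k, h1, h2, by omega,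
    ⟨(shiftFunctor T k).mapIso a ≪≫ ((shiftFunctorAdd' T k' k _ rfl).app X).symm⟩⟩

variable {R : T} [MonObj R] (U : UnitCof R)

/-- The couple of the tower of the sphere with test object `P`. -/
noncomputable abbrev CP (P : T) : Couple.{v, v} := (U.tow (𝟙_ T)).couple P

/-- `g₀` has a lift to filtration `s` with class `e`. -/
def Lft {P : T} (s : ℕ) {n t : ℤ} (h : n + (s : ℤ) = t) (g₀ : P⟦n⟧ ⟶ 𝟙_ T)
    (e : P⟦t⟧ ⟶ R ⊗ U.cobar.B s (𝟙_ T)) : Prop :=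
  ∃ c : P⟦t⟧ ⟶ U.cobar.B s (𝟙_ T), pj U P s (𝟙_ T) n t h c = g₀ ∧ c ≫ unitMap R _ = e

/-- The image in filtration zero. -/
noncomputable def g0 {P : T} {s : ℕ} {n : ℤ} (y : (CP U P).D s n) : P⟦n⟧ ⟶ 𝟙_ T :=
  tD U P (𝟙_ T) (s := 0) (add_zero n) ((CP U P).proj n (Nat.zero_le s) y)

variable {U}

lemma g0_eq {P : T} {s : ℕ} {n t : ℤ} (h : n + (s : ℤ) = t) (y : (CP U P).D s n) :
    g0 U y = pj U P s (𝟙_ T) n t h (tD U P (𝟙_ T) h y) :=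
  (tD_proj U s (add_zero s) (Nat.zero_le s) (add_zero n) h h y).trans
    (congrArg (pj U P s (𝟙_ T) n t h) (Category.comp_id _))

lemma g0_proj {P : T} {r s : ℕ} {n : ℤ} (h : r ≤ s) (y : (CP U P).D s n) :
    g0 U ((CP U P).proj n h y) = g0 U y := by
  rw [g0, g0, proj_proj]

lemma g0_i {P : T} {s : ℕ} {n : ℤ} (y : (CP U P).D (s + 1) n) :
    g0 U ((CP U P).i s n y) = g0 U y := by
  rw [g0, g0, Couple.proj_succ]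

lemma lft_iff {P : T} {s : ℕ} {n t : ℤ} (h : n + (s : ℤ) = t) (g₀ : P⟦n⟧ ⟶ 𝟙_ T)
    (e : P⟦t⟧ ⟶ R ⊗ U.cobar.B s (𝟙_ T)) : Lft U s h g₀ e ↔
      ∃ y : (CP U P).D s n, g0 U y = g₀ ∧ tE U P (𝟙_ T) h ((CP U P).j s n y) = e := by
  constructor
  · rintro ⟨c, h1, h2⟩
    obtain ⟨y, rfl⟩ := (tD U P (𝟙_ T) h).surjective c
    exact ⟨y, (g0_eq h y).trans h1, (tE_j U h y).trans h2⟩
  · rintro ⟨y, h1, h2⟩
    exact ⟨_, (g0_eq h y).symm.trans h1, (tE_j U h y).symm.trans h2⟩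

lemma pj_bc {P : T} {a b c : ℕ} (hc : a + b = c) {n k t : ℤ} (h1 : n + (b : ℤ) = k)
    (h2 : k + (a : ℤ) = t) (h : n + (c : ℤ) = t) (x : P⟦t⟧ ⟶ U.cobar.B c (𝟙_ T)) :
    pj U P c (𝟙_ T) n t h x =
      pj U P b (𝟙_ T) n k h1 (pj U P a (U.cobar.B b (𝟙_ T)) k t h2 (x ≫ bc U hc (𝟙_ T))) := by
  obtain ⟨y, rfl⟩ := (tD U P (𝟙_ T) h).surjective x
  rw [← g0_eq, ← tD_proj U a hc (by omega) h1 h h2, ← g0_eq, g0_proj]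

/-- Change of the test object. -/
lemma Lft.pre {P P' : T} {s : ℕ} {n t k t' : ℤ} {h : n + (s : ℤ) = t} {g₀ : P⟦n⟧ ⟶ 𝟙_ T}
    {e : P⟦t⟧ ⟶ R ⊗ U.cobar.B s (𝟙_ T)} (H : Lft U s h g₀ e) (h' : k + (s : ℤ) = t')
    (ω : P'⟦k⟧ ⟶ P⟦n⟧) : ∃ e', Lft U s h' (ω ≫ g₀) e' := by
  obtain ⟨c, rfl, -⟩ := H
  obtain ⟨a, rfl⟩ := (sh (P := P') (Y := P) (k - n) n k (by ring)).surjective ω
  exact ⟨_, sh (k - n) t t' (by omega) a ≫ c, pj_sh U s _ _ _ h h' a c, rfl⟩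

lemma Lft.succ {P : T} {s : ℕ} {n t t' : ℤ} {h : n + (s : ℤ) = t} {g₀ : P⟦n⟧ ⟶ 𝟙_ T}
    (H : Lft U s h g₀ 0) (h' : n + ((s + 1 : ℕ) : ℤ) = t') : ∃ e', Lft U (s + 1) h' g₀ e' := by
  obtain ⟨y, rfl, h2⟩ := (lft_iff h _ _).1 H
  obtain ⟨y, rfl⟩ := (CP U P).exact_j s n y ((AddEquiv.map_eq_zero_iff _).1 h2)
  exact ⟨_, (lft_iff h' _ _).2 ⟨y, (g0_i y).symm, rfl⟩⟩

lemma Lft.sub_k {P : T} {s : ℕ} {n t : ℤ} {h : n + ((s + 1 : ℕ) : ℤ) = t} {g₀ : P⟦n⟧ ⟶ 𝟙_ T}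
    {w : P⟦t⟧ ⟶ R ⊗ U.cobar.B s (𝟙_ T)}
    (H : Lft U (s + 1) h g₀ (w ≫ U.cobar.k s (𝟙_ T) ≫ unitMap R _)) : Lft U (s + 1) h g₀ 0 := by
  obtain ⟨c, rfl, h2⟩ := H
  exact ⟨c - w ≫ U.cobar.k s (𝟙_ T), by rw [map_sub, pj_k, sub_zero],
    by rw [Preadditive.sub_comp, h2, Category.assoc, sub_self]⟩

lemma af_g0 {P : T} {s : ℕ} (hs : 2 ≤ s) {n : ℤ} (y : (CP U P).D s n) :
    Tr.AF η[R] 2 (g0 U y) := by
  have n0 : ∀ r, U.bd r (𝟙_ T) ≫ unitMap R _ = 0 := fun r => by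
    rw [← cancel_mono (csh R 1 _).hom, Category.assoc, unitMap_csh, zero_comp]
    exact (U.tow (𝟙_ T)).c_a r
  have e : g0 U y = (U.tow (𝟙_ T)).eD P (s := 0) (add_zero n)
      ((CP U P).i 0 n ((CP U P).i 1 n ((CP U P).proj n hs y))) := by
    rw [Couple.i_proj, Couple.i_proj]
    rfl
  have h := sh_sh (U.tow (𝟙_ T)) (s := 0) (add_zero n) rfl rfl (by push_cast; ring)
    ((CP U P).proj n hs y)
  rw [← e] at h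
  have h2 : Tr.AF η[R] 2 (sh (n + 1) 1 (n + 1 + 1) rfl (sh n 1 (n + 1) rfl (g0 U y))) := by
    refine (h.trans (Category.assoc _ _ _).symm) ▸ ?_
    exact Tr.AF.succ ((Tr.AF.of_null (n0 1)).pre _) (null_shift (n0 0) 1)
  have h3 := h2.pre ((shiftFunctorAdd' T (n + 1) 1 _ rfl).inv.app P)
  rw [Mq.sh_apply, Iso.inv_hom_id_app_assoc] at h3
  have h4 := (af_of_shift 1 h3).pre ((shiftFunctorAdd' T n 1 _ rfl).inv.app P)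
  rw [Mq.sh_apply, Iso.inv_hom_id_app_assoc] at h4
  exact af_of_shift 1 h4

end Gen

variable [HasCoproducts.{0} T] {D : MUData T} {U : UnitCof D.R}

/-- The product of two lifts. -/
theorem Lft.mul {P : T} {a b c : ℕ} (hc : a + b = c) {w v u : ℤ} (hw : w + v = u) (hv : 0 ≤ v)
    {n t m N t' : ℤ} {h : n + (a : ℤ) = t} {h' : m + (b : ℤ) = 2 * v} (hN : n + m = N)
    (h'' : N + (c : ℤ) = t') (ht : t + 2 * v = t') (h2 : 2 * w + 2 * v = 2 * u)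
    {g₀ : P⟦n⟧ ⟶ 𝟙_ T} {θ : (𝟙_ T)⟦m⟧ ⟶ 𝟙_ T}
    {π : P⟦t⟧ ⟶ (𝟙_ T)⟦2 * w⟧} {x : Cob.wt Laz a w} {y : Cob.wt Laz b v}
    (H : Lft U a h g₀ (π ≫ xi D U x)) (H' : Lft U b h' θ (xi D U y)) :
    Lft U c h'' (sh n m N hN g₀ ≫ θ) ((sh t _ t' ht π ≫
      (shiftFunctorAdd' T (2 * w) _ _ h2).inv.app (𝟙_ T)) ≫ xi D U (cupw hc hw x y)) := by
  obtain ⟨k, rfl⟩ := Int.eq_ofNat_of_zero_le hv
  obtain ⟨c₁, rfl, e₁⟩ := H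
  obtain ⟨c₂, rfl, e₂⟩ := H'
  refine ⟨(sh t _ t' ht c₁ ≫ U.κB _ a (𝟙_ T) ≫ U.cobar.Bm a c₂) ≫ inv (bc U hc (𝟙_ T)), ?_, ?_⟩
  · rw [pj_bc hc (k := n + 2 * (k : ℤ)) (by omega) (by omega), Category.assoc, IsIso.inv_hom_id,
      Category.comp_id, ← Category.assoc, pj_nat, pj_κB U k a _ h _ rfl ht, pj_sh U b _ hN rfl h']
  · have e3 := pr_Xi (D := D) (U := U) (i := 𝟙 (𝟙_ T)) (m := (λ_ (𝟙_ T)).hom)
      (by rw [id_whiskerRight, Category.id_comp]) hc hw h2 x y (by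
        rw [xi_Xi, ← e₂]; exact coc_unit c₂)
    have e4 := i_gV (𝟙 (𝟙_ T)) (uN_actB U (𝟙 (𝟙_ T)) (λ_ (𝟙_ T)).hom
      (by rw [id_whiskerRight, Category.id_comp]) b) (Xi D U (𝟙 (𝟙_ T)) y)
    rw [CategoryTheory.Functor.map_id, Category.id_comp] at e4
    rw [e4, xi_Xi, xi_Xi, xi_Xi] at e3
    have e5 : P236L.pr U a ht (π ≫ xi D U x) (xi D U y) = (sh t _ t' ht π ≫
        (shiftFunctorAdd' T (2 * w) _ _ h2).inv.app (𝟙_ T)) ≫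
          P236L.pr U a h2 (xi D U x) (xi D U y) := by
      rw [P236L.pr, P236L.pr, oc, oc, sh_comp, Mq.sh_apply _ (2 * w)]
      simp only [Category.assoc, Iso.inv_hom_id_app_assoc]
    rw [e3, ← e₁, ← e₂, pr_unit_left, ext_unit] at e5
    rw [Category.assoc, unitMap_nat, ← Category.assoc, Category.assoc (sh t _ t' ht c₁), e5,
      Category.assoc, Category.assoc (xi D U _), ← MonoidalCategory.whiskerLeft_comp,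
      IsIso.hom_inv_id, MonoidalCategory.whiskerLeft_id, Category.comp_id]

variable {V : T} {i : 𝟙_ T ⟶ V} {δ : V ⟶ (𝟙_ T)⟦(1 : ℤ)⟧}
  (hC : Dist ((3 : ℤ) • 𝟙 (𝟙_ T)) i δ) (hV : (3 : ℤ) • 𝟙 V = 0)

include hC hV

theorem dual_shift {L X : T} {iX : L ⟶ X} {δX : X ⟶ L⟦(1 : ℤ)⟧} (hX : Moo iX δX) {l : ℤ}
    (hL : Sph L l) (k : ℤ) {t : ℤ} (ht : l + k + 1 = t) :
    ∃ φ : (L⟦(1 : ℤ)⟧)⟦k⟧ ≅ (𝟙_ T)⟦t⟧, Nonempty (Dual i (δX⟦k⟧' ≫ φ.hom)) := by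
  have h1 := hX.map (tensorRight ((𝟙_ T)⟦k⟧))
  obtain ⟨φ⟩ := (hL.tensor (sph_self k) rfl).shift 1 ht
  obtain ⟨Q⟩ := dual_of_moo hC hV h1 φ
  refine ⟨(tensorSph k _).symm ≪≫ ((tensorRight ((𝟙_ T)⟦k⟧)).commShiftIso (1 : ℤ)).app L ≪≫ φ,
    ⟨?_⟩⟩
  have h2 := Q.iso (tensorSph k X).symm (Iso.refl _)
  have e : (tensorSph k X).inv ≫ δX ▷ ((𝟙_ T)⟦k⟧) = δX⟦k⟧' ≫ (tensorSph k _).inv := by
    rw [Iso.inv_comp_eq, ← tensorSph_naturality_assoc, Iso.hom_inv_id, Category.comp_id]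
  refine cast (congrArg (Dual i) ?_) h2
  simp only [Iso.symm_hom, Iso.refl_hom, Iso.trans_hom, Iso.app_hom, Category.assoc,
    Category.comp_id]
  exact (reassoc_of% e) _

theorem MooN.dual {W : T} {n : ℤ} (h : MooN W n) {t : ℤ} (ht : n + 1 = t) :
    ∃ π : W ⟶ (𝟙_ T)⟦t⟧, Nonempty (Dual i π) := by
  obtain ⟨L, X, iX, δX, l, k, h1, h2, h3, ⟨a⟩⟩ := h
  obtain ⟨φ, ⟨Q⟩⟩ := dual_shift hC hV h1 h2 k (t := t) (by omega)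
  exact ⟨_, ⟨Q.iso a (Iso.refl _)⟩⟩

/-- The cocycle of a map out of a Moore object. -/
theorem ordB {W : T} {N : ℕ} (hW : MooN W (4 * (N : ℤ) - 2)) (g : W ⟶ 𝟙_ T) :
    ∃ (x : Co 1 N) (π : W⟦(1 : ℤ)⟧ ⟶ (stdEven T).S (2 * (N : ℤ)))
      (c : W⟦(1 : ℤ)⟧ ⟶ U.cobar.B 1 (𝟙_ T)), IsZ x ∧ Perm D U i x ∧
      c ≫ U.bd 0 (𝟙_ T) = g⟦(1 : ℤ)⟧' ∧
      c ≫ unitMap D.R _ = π ≫ D.evw 1 _ x ≫ Dt.qq D U 1 := by
  have G : Gen D U i (IC 3 1) := gen_three hC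
  obtain ⟨π, ⟨Q⟩⟩ := hW.dual hC hV (t := 2 * (2 * (N : ℤ) - 1) + 1) (by ring)
  obtain ⟨π', ⟨Q'⟩⟩ := (hW.shift 1 rfl).dual hC hV (t := 2 * (2 * (N : ℤ))) (by ring)
  have hT : Dist _ _ _ := U.towerTriangle_distinguished 0 (𝟙_ T)
  obtain ⟨c, hc⟩ := hT.lift₁ (g⟦(1 : ℤ)⟧') (by
    refine (Functor.map_comp _ _ _).symm.trans ?_
    rw [Q.odd G 0 (g ≫ _)]
    exact Functor.map_zero _ _ _)
  obtain ⟨x, h1, h2, h3⟩ := Q'.perm G (s := 1) c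
  exact ⟨x, π' ≫ (sM T _).inv, c, h1, h2, hc, by rw [h3, xi_eq, Category.assoc]⟩

omit hV in
/-- The lift of the restriction to the bottom cell. -/
theorem lift_two {L X : T} {iX : L ⟶ X} {δX : X ⟶ L⟦(1 : ℤ)⟧} (hX : Moo iX δX) {w n : ℤ}
    (hn : n + ((2 : ℕ) : ℤ) = 2 * w) (φ : (L⟦(1 : ℤ)⟧)⟦(1 : ℤ)⟧ ≅ (𝟙_ T)⟦2 * w⟧)
    {x : Cob.wt Laz 1 w} {x₂ : Cob.wt Laz 2 w} (hx : Cob.d 1 x.1 = (3 : ℤ) • x₂.1)
    {f : X ⟶ 𝟙_ T} {c : X⟦(1 : ℤ)⟧ ⟶ U.cobar.B 1 (𝟙_ T)} (h1 : c ≫ U.bd 0 (𝟙_ T) = f⟦(1 : ℤ)⟧')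
    (h2 : c ≫ unitMap D.R _ = (δX⟦(1 : ℤ)⟧' ≫ φ.hom) ≫ xi D U x) :
    ∃ (θ : (𝟙_ T)⟦n⟧ ⟶ 𝟙_ T) (ω : L ⟶ (𝟙_ T)⟦n⟧), ω ≫ θ = iX ≫ f ∧
      Lft U 2 hn θ (xi D U (-x₂)) := by
  have hX' : Dist _ iX δX := hX
  have hT : Dist _ _ _ := U.towerTriangle_distinguished 1 (𝟙_ T)
  obtain ⟨t, e1, e2⟩ : ∃ t : (L⟦(1 : ℤ)⟧)⟦(1 : ℤ)⟧ ⟶ U.cobar.B 2 (𝟙_ T),
      (-(-((3 : ℤ) • 𝟙 L)⟦(1 : ℤ)⟧')⟦(1 : ℤ)⟧') ≫ t =
        (-(φ.hom ≫ xi D U x)) ≫ U.cobar.k 1 (𝟙_ T) ∧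
      (-(-iX⟦(1 : ℤ)⟧')⟦(1 : ℤ)⟧') ≫ c⟦(1 : ℤ)⟧' = t ≫ U.bd 1 (𝟙_ T) :=
    hX'.rot.rot.rot.rot.rot.map₃ hT c (-(φ.hom ≫ xi D U x)) (by
      rw [Preadditive.neg_comp_neg, ← Category.assoc]
      exact h2.symm)
  rw [Functor.map_neg, neg_neg, Functor.map_zsmul, Functor.map_zsmul,
    CategoryTheory.Functor.map_id, CategoryTheory.Functor.map_id, Preadditive.zsmul_comp,
    Category.id_comp] at e1
  rw [Functor.map_neg, neg_neg] at e2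
  obtain ⟨y, hy⟩ := (tD U (𝟙_ T) (𝟙_ T) hn).surjective (φ.inv ≫ t)
  have e3 : tE U (𝟙_ T) (𝟙_ T) hn ((CP U (𝟙_ T)).j 2 n y) = xi D U (-x₂) := by
    obtain ⟨z, hz⟩ := (tE U (𝟙_ T) (𝟙_ T) hn).surjective (xi D U (-x₂))
    rw [← hz]
    refine congrArg _ (sub_eq_zero.1 ((bockV hC (gen_three hC)).tf 2 n _ ?_))
    apply (tE U (𝟙_ T) (𝟙_ T) hn).injective
    have e : Cob.dwt Laz 1 w x = (3 : ℤ) • x₂ := Subtype.ext hx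
    rw [map_zsmul, map_sub, hz, tE_j, hy, smul_sub, ← Preadditive.zsmul_comp,
      ← Preadditive.comp_zsmul, e1, Preadditive.neg_comp, Preadditive.comp_neg, Category.assoc,
      Iso.inv_hom_id_assoc, Preadditive.neg_comp, Category.assoc, ← xi_d, e, ← neg_one_zsmul x₂,
      xi_zsmul, xi_zsmul, neg_one_zsmul, smul_neg, sub_self, map_zero]
  have h3 : n + 1 + 1 = 2 * w := by rw [← hn]; push_cast; ring
  have e4 := sh_sh (U.tow (𝟙_ T)) (s := 0) (add_zero n) rfl h3 hn y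
  have e5 : sh (n + 1) 1 (2 * w) h3 (sh n 1 (n + 1) rfl (g0 U y)) =
      (φ.inv ≫ t) ≫ U.bd 1 (𝟙_ T) ≫ (U.bd 0 (𝟙_ T))⟦(1 : ℤ)⟧' := by
    rw [← hy, ← g0_i, ← g0_i, g0, Couple.proj_self]
    exact e4
  refine ⟨g0 U y, (shiftFunctor T (1 : ℤ)).preimage ((shiftFunctor T (1 : ℤ)).preimage
    (φ.hom ≫ (shiftFunctorAdd' T (n + 1) 1 _ h3).hom.app _) ≫
      (shiftFunctorAdd' T n 1 _ rfl).hom.app _), ?_, (lft_iff hn _ _).2 ⟨y, rfl, e3⟩⟩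
  apply (shiftFunctor T (1 : ℤ)).map_injective
  apply (shiftFunctor T (1 : ℤ)).map_injective
  rw [Functor.map_comp, Functor.map_preimage, Category.assoc, ← Mq.sh_apply, Functor.map_comp,
    Functor.map_preimage, Category.assoc, ← Mq.sh_apply, e5, Category.assoc, Iso.hom_inv_id_assoc,
    ← reassoc_of% e2, ← Functor.map_comp, h1, ← Functor.map_comp, ← Functor.map_comp]

variable [MonoidalClosed T] [IsTriangulated T] [HasProducts.{0} T] [StableCat T]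

/-- A map of filtration seven extends by a map of filtration two. -/
theorem extend {M : ℕ}
    (H : ∀ (s W : ℕ) (y : Co s W), 10 ≤ s → 4 * W + 2 = 4 * M + s → IsZ y → Perm D U i y →
      Bd D U i 5 y) {P A Z : T} (hP : MooN P (4 * (M : ℤ) - 3)) {ψ : P ⟶ A} {e : A ⟶ Z}
    {q : Z ⟶ P⟦(1 : ℤ)⟧} (hZ : Dist ψ e q) {g : A ⟶ 𝟙_ T} {c}
    (hg : Lft U 7 (rfl : (0 : ℤ) + ((7 : ℕ) : ℤ) = _) ((shiftFunctorZero T ℤ).hom.app A ≫ g) c) :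
    ∃ G : Z ⟶ 𝟙_ T, Tr.AF η[D.R] 2 G ∧ e ≫ G = g := by
  obtain ⟨y, hy, -⟩ := (lft_iff _ _ _).1 hg
  obtain ⟨π, ⟨Q⟩⟩ := (hP.shift (0 + ((5 + 1 + 1 : ℕ) : ℤ)) rfl).dual hC hV
    (t := 4 * (M : ℤ) - 2 + ((5 + 1 + 1 : ℕ) : ℤ)) (by ring)
  have h1 := Q.ii_zero (U := U) (fun e => by
    have h := proj_five hC rfl H e
    rwa [Couple.proj_succ _ _ (show 5 ≤ 6 by norm_num), Couple.proj_succ _ _ le_rfl,
      Couple.proj_self] at h) (ψ⟦_⟧' ≫ y)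
  have key : ∀ {A A' : T} (a : A' ⟶ A) (s : ℕ) (y : (CP U A).D (s + 1) 0),
      (CP U A').i s 0 (a⟦_⟧' ≫ y) = a⟦_⟧' ≫ (CP U A).i s 0 y := fun a s y => by
    refine (AddEquiv.symm_apply_eq _).2 ?_
    refine Eq.trans ?_ (sh_pre a _ _ _ _ _).symm
    exact (Category.assoc _ _ _).trans (congrArg _ (AddEquiv.apply_symm_apply _ _).symm)
  rw [key, key] at h1
  obtain ⟨G, hG⟩ := desc_shift hZ _ _ h1
  refine ⟨(shiftFunctorZero T ℤ).inv.app Z ≫ g0 U (s := 5) G,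
    (af_g0 (by norm_num) _).pre _, ?_⟩
  have h2 : e⟦(0 : ℤ)⟧' ≫ g0 U (s := 5) G = (shiftFunctorZero T ℤ).hom.app A ≫ g := by
    rw [← hy, ← g0_i, ← g0_i, g0_eq rfl]
    refine (congrArg _ (g0_eq (s := 5) rfl G)).trans ((pj_pre U e _ _ _ _ _ _).symm.trans ?_)
    exact congrArg _ hG
  have h3 : e ≫ (shiftFunctorZero T ℤ).inv.app Z =
      (shiftFunctorZero T ℤ).inv.app A ≫ e⟦(0 : ℤ)⟧' := (shiftFunctorZero T ℤ).inv.naturality e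
  rw [reassoc_of% h3, h2, Iso.inv_hom_id_app_assoc]

/-- **Steps 0 and 5.** -/
theorem ordA {N N₂ M : ℕ} (h₂ : N + N = N₂) (h₃ : N + N₂ = M)
    (H : ∀ (s W : ℕ) (y : Co s W), 10 ≤ s → 4 * W + 2 = 4 * M + s → IsZ y → Perm D U i y →
      Bd D U i 5 y) {x : Co 1 N} {x₂ : Co 2 N} (hx : Cob.d 1 x.1 = (3 : ℤ) • x₂.1)
    (hp : Perm D U i x)
    (hB : P236K.IsB (cupT (show 1 + 4 = 5 from rfl) h₃ x (cupT (show 2 + 2 = 4 from rfl) h₂ x₂ x₂)))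
    {L X : T} {iX : L ⟶ X} {δX : X ⟶ L⟦(1 : ℤ)⟧} (hX : Moo iX δX)
    (hL : Sph L (4 * (N : ℤ) - 2)) :
    ∃ (f : X ⟶ 𝟙_ T) (φ : (L⟦(1 : ℤ)⟧)⟦(1 : ℤ)⟧ ≅ (stdEven T).S (2 * (N : ℤ)))
      (c : X⟦(1 : ℤ)⟧ ⟶ U.cobar.B 1 (𝟙_ T)), c ≫ U.bd 0 (𝟙_ T) = f⟦(1 : ℤ)⟧' ∧
      c ≫ unitMap D.R _ = (δX⟦(1 : ℤ)⟧' ≫ φ.hom) ≫ D.evw 1 _ x ≫ Dt.qq D U 1 ∧
      ∀ {P Z : T} (_ : MooN P (4 * (M : ℤ) - 3)) {ψ : P ⟶ L ⊗ L ⊗ X} {e : L ⊗ L ⊗ X ⟶ Z}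
        {q : Z ⟶ P⟦(1 : ℤ)⟧}, Dist ψ e q → ∃ G : Z ⟶ 𝟙_ T, Tr.AF η[D.R] 2 G ∧
          e ≫ G = ((iX ≫ f) ⊗ₘ (iX ≫ f) ⊗ₘ f) ≫ (λ_ _).hom ≫ (λ_ _).hom := by
  have G : Gen D U i (IC 3 1) := gen_three hC
  obtain ⟨φ, ⟨Q⟩⟩ := dual_shift hC hV hX hL 1 (t := 2 * (2 * (N : ℤ))) (by ring)
  obtain ⟨c, hc⟩ := Q.lift hp
  obtain ⟨f, hf⟩ : ∃ f : X ⟶ 𝟙_ T, f⟦(1 : ℤ)⟧' = c ≫ U.bd 0 (𝟙_ T) :=
    (shiftFunctor T (1 : ℤ)).map_surjective _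
  refine ⟨f, φ ≪≫ (sM T _).symm, c, hf.symm, by
    rw [hc, xi_eq, Iso.trans_hom, Iso.symm_hom]; simp only [Category.assoc], ?_⟩
  intro P Z hP ψ e q hZ
  obtain ⟨n, hn⟩ : ∃ n : ℤ, n + ((2 : ℕ) : ℤ) = 2 * (2 * (N : ℤ)) := ⟨_, sub_add_cancel _ _⟩
  obtain ⟨θ, ω, hω, L2⟩ := lift_two hC hX hn φ hx hf.symm hc
  have k1 : (0 : ℤ) + ((1 : ℕ) : ℤ) = 1 := by norm_num
  have L1 : Lft U 1 k1 ((shiftFunctorZero T ℤ).hom.app X ≫ f)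
      ((δX⟦(1 : ℤ)⟧' ≫ φ.hom) ≫ xi D U x) := by
    refine ⟨c, ?_, hc⟩
    rw [pj_succ U 0 _ 0 1 k1 (by norm_num), AddEquiv.symm_apply_eq]
    have key : ∀ (t : ℤ) (h : (0 : ℤ) + 1 = t) (h' : 0 + 1 + ((0 : ℕ) : ℤ) = t)
        (c : X⟦t⟧ ⟶ U.cobar.B 1 (𝟙_ T)),
        c ≫ U.bd 0 (𝟙_ T) = sh 0 1 t h ((shiftFunctorZero T ℤ).hom.app X ≫ f) →
        pj U X 0 (U.J ⊗ 𝟙_ T) (0 + 1) t h' c ≫ U.bdry (𝟙_ T) =
          sh 0 1 (0 + 1) rfl ((shiftFunctorZero T ℤ).hom.app X ≫ f) := by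
      rintro t rfl h' c hc
      exact hc
    refine key 1 (zero_add 1) _ c ?_
    rw [← hf, sh_zero]
  have k2 : n + n + ((4 : ℕ) : ℤ) = 2 * (2 * (N₂ : ℤ)) := by omega
  have L4 := Lft.mul (show 2 + 2 = 4 from rfl) (w := 2 * (N : ℤ)) (v := 2 * (N : ℤ))
    (u := 2 * (N₂ : ℤ)) (by omega) (by omega) (h := hn) (h' := hn) rfl k2
    (by omega) (by omega) (π := 𝟙 _) (by rw [Category.id_comp]; exact L2) L2
  rw [sh_id, Category.id_comp, ← neg_one_zsmul x₂, cupw_zsmul_left, cupw_zsmul_right,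
    smul_smul, neg_one_mul, neg_neg, one_smul] at L4
  have k3 : n + n + ((4 + 1 : ℕ) : ℤ) = 1 + 2 * (2 * (N₂ : ℤ)) := by omega
  have L5 := Lft.mul (show 1 + 4 = 4 + 1 from rfl) (w := 2 * (N : ℤ)) (v := 2 * (N₂ : ℤ))
    (u := 2 * (M : ℤ)) (by omega) (by omega) (zero_add (n + n)) k3 rfl (by omega) L1 L4
  obtain ⟨z, hz⟩ := hB
  obtain ⟨π, y, h3, hy, L5⟩ : ∃ (π : X⟦1 + 2 * (2 * (N₂ : ℤ))⟧ ⟶ (𝟙_ T)⟦2 * (2 * (M : ℤ))⟧)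
      (y : Co 5 M), (3 : ℤ) • π = 0 ∧ y.1 - Cob.d 4 z.1 ∈ IC 3 1 5 ∧ Lft U (4 + 1) k3
        (sh 0 (n + n) (n + n) (zero_add _) ((shiftFunctorZero T ℤ).hom.app X ≫ f) ≫
          sh n n (n + n) rfl θ ≫ θ) (π ≫ xi D U y) :=
    ⟨_, _, by
      rw [← Preadditive.zsmul_comp, ← map_zsmul, ← Preadditive.zsmul_comp, ← Functor.map_zsmul,
        hX.smul_δ, Functor.map_zero, zero_comp, map_zero, zero_comp], hz, L5⟩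
  have k4 : 2 * (2 * (M : ℤ)) - 5 + ((5 : ℕ) : ℤ) = 2 * (2 * (M : ℤ)) := by omega
  obtain ⟨a, ha⟩ := exists_zsmul_of_red hC (xi D U (y - Cob.dwt Laz 4 _ z)) (by
    refine (eE_cls D U k4 _).symm.trans ?_
    rw [G.cls_eq_zero k4 hy]
    exact map_zero _)
  have e1 : π ≫ xi D U y = (π ≫ xi D U z) ≫ U.cobar.k 4 (𝟙_ T) ≫ unitMap D.R _ := by
    rw [← sub_add_cancel y (Cob.dwt Laz 4 _ z), xi_add, ← ha, xi_d, Preadditive.comp_add,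
      Preadditive.comp_zsmul, ← Preadditive.zsmul_comp, h3, zero_comp, zero_add, Category.assoc]
  rw [e1] at L5
  obtain ⟨e6, L6⟩ := L5.sub_k.succ rfl
  obtain ⟨π', ⟨Q'⟩⟩ := ((mooN_of hX hL).shift (n + n + ((4 + 1 + 1 : ℕ) : ℤ)) rfl).dual hC hV
    (t := 2 * (2 * (M : ℤ)) + 1) (by omega)
  rw [Q'.odd G _ e6] at L6
  obtain ⟨e7, L7⟩ := L6.succ rfl
  obtain ⟨ω', hω'⟩ : ∃ ω' : L ⊗ L ⊗ X ⟶ X⟦n + n⟧,
      ω' ≫ sh 0 (n + n) (n + n) (zero_add _) ((shiftFunctorZero T ℤ).hom.app X ≫ f) ≫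
        sh n n (n + n) rfl θ ≫ θ = ((iX ≫ f) ⊗ₘ (iX ≫ f) ⊗ₘ f) ≫ (λ_ _).hom ≫ (λ_ _).hom := by
    have t1 : ∀ {A : T} (g : A ⟶ 𝟙_ T), ((iX ≫ f) ⊗ₘ g) ≫ (λ_ (𝟙_ T)).hom =
        (ω ▷ A ≫ (β_ _ A).hom ≫ (tensorSph n A).hom) ≫ g⟦n⟧' ≫ θ := fun g => by
      rw [Category.assoc, ← tens_sph, ← hω, ← tensorHom_id, tensorHom_comp_tensorHom_assoc,
        Category.id_comp]
    have t2 : ((iX ≫ f) ⊗ₘ (iX ≫ f) ⊗ₘ f) ≫ (λ_ _).hom ≫ (λ_ _).hom =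
        ((iX ≫ f) ⊗ₘ (((iX ≫ f) ⊗ₘ f) ≫ (λ_ (𝟙_ T)).hom)) ≫ (λ_ (𝟙_ T)).hom := by
      rw [← leftUnitor_naturality, ← id_tensorHom, tensorHom_comp_tensorHom_assoc,
        Category.comp_id]
    have t3 : (shiftFunctorAdd' T n n (n + n) rfl).inv.app X ≫ f⟦n + n⟧' =
        (f⟦n⟧')⟦n⟧' ≫ (shiftFunctorAdd' T n n (n + n) rfl).inv.app (𝟙_ T) :=
      ((shiftFunctorAdd' T n n (n + n) rfl).inv.naturality f).symm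
    refine ⟨(ω ▷ _ ≫ (β_ _ _).hom ≫ (tensorSph n _).hom) ≫
      (ω ▷ X ≫ (β_ _ X).hom ≫ (tensorSph n X).hom)⟦n⟧' ≫
        (shiftFunctorAdd' T n n (n + n) rfl).inv.app X, ?_⟩
    rw [t2, t1, t1, sh_zero, Mq.sh_apply]
    simp only [Functor.map_comp, Category.assoc]
    rw [reassoc_of% t3, Iso.inv_hom_id_app_assoc]
  obtain ⟨e', L'⟩ := L7.pre (rfl : (0 : ℤ) + ((7 : ℕ) : ℤ) = _)
    ((shiftFunctorZero T ℤ).hom.app _ ≫ ω')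
  rw [Category.assoc, hω'] at L'
  exact extend hC hV H hP hZ L'

end Vale.Agent.P236S
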