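import Vale.Agent.P236S.BockAbs
import Vale.Agent.P236L.Api

/-!
# P236, block BOCK: the geometric boundary theorem in terms of cochains

`V = S/q`, `x`, `y` are integral cochains with `d x = q x₁`, `d y = q y₁`.

* `dif_bock`: `Dif x y` in the tower of `V` implies `Dif x₁ (-y₁)` in the tower of every `V'`;
* `perm_bock`, `bd_bock`, `bd_bock_succ`: the same for `Perm` and `Bd`;
* `perm_bock_int`: the integral lift of `x₁`, killed by `q` in filtration `s`;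
* `dif_map`, `perm_map`, `bd_map`: naturality along `g : V ⟶ V'` with `i ≫ g = c • i'`.
-/

open CategoryTheory MonoidalCategory Limits Pretriangulated MonObj

set_option linter.unusedSectionVars false

universe v u

namespace Vale.Agent.P236S

open Vale.Agent.P251 Vale.Agent.P251.T Vale.Agent.P251.F Vale.Agent.P251.I
  Vale.Agent.P251.M Vale.Agent.P257.H712 Vale.Agent.P257 Vale.Agent.P251.B
open Vale.Agent.P251.S hiding IC
open Vale.Agent.P236L (Dif Bd Perm Gen sM cls coch)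

section Sign

variable {T : Type u} [Category.{v} T] [Preadditive T] [HasZeroObject T] [HasShift T ℤ]
  [∀ n : ℤ, (shiftFunctor T n).Additive] [Pretriangulated T] [MonoidalCategory T]
  [SymmetricCategory T] [TensorTriangulated T]

lemma tensorSph_one (Y : T) : (tensorSph 1 Y).hom = (TensorTriangulated.e Y).hom := by
  have h1 : (Y ◁ (TensorTriangulated.e (𝟙_ T)).inv) ≫ (α_ Y (𝟙_ T) ((𝟙_ T)⟦(1 : ℤ)⟧)).inv =
      (ρ_ Y).inv ▷ ((𝟙_ T)⟦(1 : ℤ)⟧) := by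
    have h2 : (TensorTriangulated.e (𝟙_ T)).inv = (λ_ ((𝟙_ T)⟦(1 : ℤ)⟧)).inv := by
      rw [Iso.inv_eq_inv]
      exact TensorTriangulated.e_unit
    rw [h2]
    simp
  rw [P236L.tensorSph_hom, csh_one, Category.assoc, Category.assoc, reassoc_of% h1,
    reassoc_of% TensorTriangulated.e_naturality (ρ_ Y).inv, ← Functor.map_comp, Iso.inv_hom_id,
    CategoryTheory.Functor.map_id, Category.comp_id]

lemma bdC_sign {C : T} (δ : C ⟶ (𝟙_ T)⟦(1 : ℤ)⟧) (Y : T) :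
    cm (tensorRight C) Y ≫ (bdC δ Y)⟦(1 : ℤ)⟧' = -bdC δ (Y⟦(1 : ℤ)⟧) := by
  have h1 : cm (tensorRight C) Y ≫ (Y ◁ δ)⟦(1 : ℤ)⟧' =
      ((Y⟦(1 : ℤ)⟧) ◁ δ) ≫ cm (tensorRight ((𝟙_ T)⟦(1 : ℤ)⟧)) Y :=
    NatTrans.shift_app_comm (trMap δ) (1 : ℤ) Y
  have h2 : (csh ((𝟙_ T)⟦(1 : ℤ)⟧) 1 Y).hom ≫ ((β_ ((𝟙_ T)⟦(1 : ℤ)⟧) Y).hom)⟦(1 : ℤ)⟧' =
      (β_ ((𝟙_ T)⟦(1 : ℤ)⟧) (Y⟦(1 : ℤ)⟧)).hom ≫ cm (tensorRight ((𝟙_ T)⟦(1 : ℤ)⟧)) Y :=
    NatTrans.shift_app_comm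
      (BraidedCategory.tensorLeftIsoTensorRight ((𝟙_ T)⟦(1 : ℤ)⟧)).hom (1 : ℤ) Y
  have h3 := signProp_one (T := T) Y
  rw [shiftFunctorComm_eq_refl] at h3
  have h4 : (csh ((𝟙_ T)⟦(1 : ℤ)⟧) 1 Y).hom ≫ (sOne Y)⟦(1 : ℤ)⟧' =
      (-1 : ℤ) • sOne (Y⟦(1 : ℤ)⟧) :=
    (congrArg _ (Category.comp_id _).symm).trans h3
  have h5 : cm (tensorRight ((𝟙_ T)⟦(1 : ℤ)⟧)) Y ≫ ((TensorTriangulated.e Y).hom)⟦(1 : ℤ)⟧' =
      -(TensorTriangulated.e (Y⟦(1 : ℤ)⟧)).hom := by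
    rw [sOne, sOne, Functor.map_comp, reassoc_of% h2, neg_one_zsmul,
      ← Preadditive.comp_neg, cancel_epi] at h4
    exact h4
  rw [bdC, bdC, tensorSph_one, tensorSph_one, Functor.map_comp, reassoc_of% h1,
    ← Preadditive.comp_neg]
  exact congrArg _ h5

/-- The tensor product with `S/q`. -/
noncomputable def mqMoore {C : T} {q : ℤ} {i : 𝟙_ T ⟶ C} {δ : C ⟶ (𝟙_ T)⟦(1 : ℤ)⟧}
    (hC : Triangle.mk (q • 𝟙 (𝟙_ T)) i δ ∈ distTriang T) : Mq (tensorRight C) (redC i) q where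
  bd := bdC δ
  nat f := bdC_naturality δ f
  dist := redTri_distinguished hC
  sign := bdC_sign δ

end Sign

variable {T : Type u} [Category.{v} T] [Preadditive T] [HasZeroObject T]
    [HasShift T ℤ] [∀ n : ℤ, (shiftFunctor T n).Additive] [Pretriangulated T]
    [MonoidalCategory T] [SymmetricCategory T] [TensorTriangulated T] [HasCoproducts.{0} T]
    (D : MUData T) (U : UnitCof D.R)

/-- The couple of the tower of the sphere. -/
noncomputable abbrev CS : Couple.{v, v} := (U.tow (𝟙_ T)).couple (𝟙_ T)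

/-- The class of a cochain in the `E₁`-term of the tower of the sphere. -/
noncomputable def cls0 (s : ℕ) (w n : ℤ) (h : n + (s : ℤ) = 2 * w) :
    Cob.wt Laz s w →+ (CS D U).E s n :=
  ((U.tow (𝟙_ T)).eE (𝟙_ T) h).symm.toAddMonoidHom.comp (AddMonoidHom.mk'
    (fun x => ((sM T w).inv ≫ D.phi U s w x) ≫ U.cobar.q s (𝟙_ T))
    fun x y => by rw [map_add, Preadditive.comp_add]; exact Preadditive.add_comp ..)

lemma eE_cls0 (s : ℕ) (w n : ℤ) (h : n + (s : ℤ) = 2 * w) (x : Cob.wt Laz s w) :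
    (U.tow (𝟙_ T)).eE (𝟙_ T) h (cls0 D U s w n h x) =
      ((sM T w).inv ≫ D.phi U s w x) ≫ U.cobar.q s (𝟙_ T) :=
  AddEquiv.apply_symm_apply _ _

lemma cls0_d {s : ℕ} {w n m : ℤ} (hn : n = m + 1) (h : n + (s : ℤ) = 2 * w)
    (h' : m + ((s + 1 : ℕ) : ℤ) = 2 * w) (x : Cob.wt Laz s w) :
    (CS D U).d s n m hn (cls0 D U s w n h x) =
      cls0 D U (s + 1) w m h' (Cob.dwt Laz s w x) := by
  apply ((U.tow (𝟙_ T)).eE (𝟙_ T) h').injective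
  refine ((U.tow (𝟙_ T)).eE_d (𝟙_ T) hn h h' _).trans ?_
  rw [eE_cls0, eE_cls0, D.phi_d U s w x]
  have h1 := U.cobar.d_q s (𝟙_ T)
  change (((sM T w).inv ≫ D.phi U s w x) ≫ U.cobar.q s (𝟙_ T)) ≫ U.cobar.D s (𝟙_ T) =
    ((sM T w).inv ≫ D.phi U s w x ≫ U.cobar.d (s + 1) (𝟙_ T)) ≫ U.cobar.q (s + 1) (𝟙_ T)
  simp only [Category.assoc]
  rw [h1]

/-- The reduction from the tower of the sphere to the tower of `V`. -/
noncomputable def redV {V : T} (i : 𝟙_ T ⟶ V) : Red (CS D U) (CV U V) where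
  fD := (mapUnit (U.tow (𝟙_ T)) (redC i)).fD (𝟙_ T)
  fE := (mapUnit (U.tow (𝟙_ T)) (redC i)).fE (𝟙_ T)
  i_comm := (mapUnit (U.tow (𝟙_ T)) (redC i)).i_fD (𝟙_ T)
  j_comm := (mapUnit (U.tow (𝟙_ T)) (redC i)).j_fD (𝟙_ T)
  k_comm := (mapUnit (U.tow (𝟙_ T)) (redC i)).k_fE (𝟙_ T)

lemma redV_cls0 {V : T} (i : 𝟙_ T ⟶ V) (s : ℕ) (w n : ℤ) (h : n + (s : ℤ) = 2 * w)
    (x : Cob.wt Laz s w) :
    (redV D U i).fE s n (cls0 D U s w n h x) = cls D U i s w n h x := by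
  apply (((U.tow (𝟙_ T)).map (tensorRight V)).eE (𝟙_ T) h).injective
  refine ((mapUnit (U.tow (𝟙_ T)) (redC i)).eE_fE (𝟙_ T) h _).trans ?_
  rw [eE_cls0]
  refine Eq.trans ?_ (U.eT_qE (𝟙_ T) (tensorRight V) (𝟙_ T) h (coch D U i s w x)).symm
  have h1 := (redC i).naturality (U.cobar.q s (𝟙_ T))
  rw [P236L.coch_apply, phiV_apply]
  change (((sM T w).inv ≫ D.phi U s w x) ≫ U.cobar.q s (𝟙_ T)) ≫ (redC i).app _ =
    ((sM T w).inv ≫ D.phi U s w x ≫ (redC i).app _) ≫ (tensorRight V).map (U.cobar.q s (𝟙_ T))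
  simp only [Category.assoc]
  rw [← h1]
  rfl

/-- The map of towers of `g : V ⟶ V'`. -/
noncomputable def mapV {V V' : T} (g : V ⟶ V') : Red (CV U V) (CV U V') where
  fD := ((U.tow (𝟙_ T)).mapTrans (trMap g)).fD (𝟙_ T)
  fE := ((U.tow (𝟙_ T)).mapTrans (trMap g)).fE (𝟙_ T)
  i_comm := ((U.tow (𝟙_ T)).mapTrans (trMap g)).i_fD (𝟙_ T)
  j_comm := ((U.tow (𝟙_ T)).mapTrans (trMap g)).j_fD (𝟙_ T)
  k_comm := ((U.tow (𝟙_ T)).mapTrans (trMap g)).k_fE (𝟙_ T)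

lemma mapV_cls {V V' : T} {i : 𝟙_ T ⟶ V} {i' : 𝟙_ T ⟶ V'} (g : V ⟶ V') {c : ℤ}
    (hg : i ≫ g = c • i') (s : ℕ) (w n : ℤ) (h : n + (s : ℤ) = 2 * w) (x : Cob.wt Laz s w) :
    (mapV D U g).fE s n (cls D U i s w n h x) = cls D U i' s w n h (c • x) := by
  rw [← redV_cls0, ← redV_cls0, map_zsmul, map_zsmul]
  apply (((U.tow (𝟙_ T)).map (tensorRight V')).eE (𝟙_ T) h).injective
  refine (((U.tow (𝟙_ T)).mapTrans (trMap g)).eE_fE (𝟙_ T) h _).trans ?_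
  refine Eq.trans ?_ (map_zsmul _ _ _).symm
  have h1 := (mapUnit (U.tow (𝟙_ T)) (redC i)).eE_fE (𝟙_ T) h (cls0 D U s w n h x)
  have h2 := (mapUnit (U.tow (𝟙_ T)) (redC i')).eE_fE (𝟙_ T) h (cls0 D U s w n h x)
  refine (congrArg (· ≫ _) h1).trans (Eq.trans ?_ (congrArg (c • ·) h2).symm)
  have key : ∀ {A W : T} (f : A ⟶ W), (f ≫ (ρ_ W).inv ≫ (W ◁ i)) ≫ (W ◁ g) =
      c • (f ≫ (ρ_ W).inv ≫ (W ◁ i')) := by
    intro A W f
    have h3 : W ◁ (c • i') = c • (W ◁ i') := (tensorLeft W).map_zsmul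
    rw [Category.assoc, Category.assoc, ← MonoidalCategory.whiskerLeft_comp, hg, h3,
      Preadditive.comp_zsmul, Preadditive.comp_zsmul]
  exact key _

variable {D U}

section Map

variable {V V' : T} {i : 𝟙_ T ⟶ V} {i' : 𝟙_ T ⟶ V'} (g : V ⟶ V') {c : ℤ}
  (hg : i ≫ g = c • i') {s s' : ℕ} {w w' : ℤ} {x : Cob.wt Laz s w} {y : Cob.wt Laz s' w'}

include hg

theorem dif_map (H : Dif D U i x y) : Dif D U i' (c • x) (c • y) := by
  obtain ⟨n, m, hn, h, h', hs, e, he, hj⟩ := H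
  refine ⟨n, m, hn, h, h', hs, (mapV D U g).fD s' m e, ?_, ?_⟩
  · rw [Red.proj_fD, he, ← Red.k_comm, mapV_cls D U g hg]
  · rw [Red.j_comm, hj, mapV_cls D U g hg]

theorem perm_map (H : Perm D U i x) : Perm D U i' (c • x) := by
  obtain ⟨n, h, e, hj⟩ := H
  exact ⟨n, h, (mapV D U g).fD s n e, by rw [Red.j_comm, hj, mapV_cls D U g hg]⟩

theorem bd_map {t : ℕ} (H : Bd D U i t x) : Bd D U i' t (c • x) := by
  obtain ⟨n, h, ht, e, he, hj⟩ := H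
  exact ⟨n, h, ht, (mapV D U g).fD s n e, by rw [Red.proj_fD, he, map_zero],
    by rw [Red.j_comm, hj, mapV_cls D U g hg]⟩

end Map

section Moore

variable {V : T} {q : ℤ} {i : 𝟙_ T ⟶ V} {δ : V ⟶ (𝟙_ T)⟦(1 : ℤ)⟧}
  (hC : Triangle.mk (q • 𝟙 (𝟙_ T)) i δ ∈ distTriang T) {𝔞 : ∀ s : ℕ, Ideal (Cob Laz s)}
  (G : Gen D U i 𝔞)

omit hC G in
include D in
lemma sph_neg (t : ℤ) (f : (𝟙_ T)⟦t⟧ ⟶ ((𝟙_ T)⟦t⟧)⟦(1 : ℤ)⟧) : f = 0 := by
  have h1 : (-1 : ℤ) + (t + 1) = t := by ring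
  obtain ⟨g, hg⟩ := (sh (P := 𝟙_ T) (Y := 𝟙_ T) (-1) (t + 1) t h1).surjective
    (f ≫ (shiftFunctorAdd' T t 1 (t + 1) rfl).inv.app (𝟙_ T))
  rw [D.conn_unit (-1) (by norm_num) g, map_zero] at hg
  rw [← cancel_mono ((shiftFunctorAdd' T t 1 (t + 1) rfl).inv.app (𝟙_ T)), ← hg, zero_comp]

omit hC in
include G in
lemma redV_surj (s : ℕ) (n : ℤ) : Function.Surjective ((redV D U i).fE s n) := by
  intro e
  rcases Int.even_or_odd' (n + (s : ℤ)) with ⟨w, hw | hw⟩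
  · obtain ⟨z, rfl⟩ := G.cls_surj hw e
    exact ⟨_, redV_cls0 D U i s w n hw z⟩
  · exact ⟨0, by rw [map_zero, G.E_odd hw e]⟩

/-- The structure `Bock` of the towers of the sphere and of `S/q`. -/
noncomputable def bockV : Bock (CS D U) (CV U V) q :=
  (mqMoore hC).bock (U.tow (𝟙_ T)) (𝟙_ T) (sph_neg (D := D)) (redV_surj G)

lemma bockV_fE (s : ℕ) (w n : ℤ) (h : n + (s : ℤ) = 2 * w) (x : Cob.wt Laz s w) :
    (bockV hC G).fE s n (cls0 D U s w n h x) = cls D U i s w n h x :=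
  redV_cls0 D U i s w n h x

variable {s s' : ℕ} {w w' : ℤ} {x : Cob.wt Laz s w} {x₁ : Cob.wt Laz (s + 1) w}
  {y : Cob.wt Laz s' w'} {y₁ : Cob.wt Laz (s' + 1) w'} {V' : T} (i' : 𝟙_ T ⟶ V')

omit hC G in
lemma cls0_d_eq (hx : Cob.d s x.1 = q • x₁.1) {n m : ℤ} (hn : n = m + 1)
    (h : n + (s : ℤ) = 2 * w) (h' : m + ((s + 1 : ℕ) : ℤ) = 2 * w) :
    (CS D U).d s n m hn (cls0 D U s w n h x) = q • cls0 D U (s + 1) w m h' x₁ := by
  have e : Cob.dwt Laz s w x = q • x₁ := Subtype.ext hx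
  rw [cls0_d D U hn h h', e, map_zsmul]

include hC G

/-- **The geometric boundary theorem.** -/
theorem dif_bock (H : Dif D U i x y) (hs : s + 2 ≤ s') (hx : Cob.d s x.1 = q • x₁.1)
    (hy : Cob.d s' y.1 = q • y₁.1) : Dif D U i' x₁ (-y₁) := by
  obtain ⟨n, m, hn, h, h', _, c, hc, hj⟩ := H
  have h1 : m + ((s + 1 : ℕ) : ℤ) = 2 * w := by push_cast; omega
  have h2 : m - 1 + ((s' + 1 : ℕ) : ℤ) = 2 * w' := by push_cast; omega
  obtain ⟨c', hc', hj'⟩ := (bockV hC G).hits hn (show m = m - 1 + 1 by ring) hs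
    (cls0_d_eq hx hn h h1) (cls0_d_eq hy (by ring) h' h2) (c := c)
    (by rw [bockV_fE]; exact hc) (by rw [bockV_fE]; exact hj)
  have hodd : Odd (s' - s) := ⟨(w' - w).toNat, by omega⟩
  rw [hodd.neg_one_pow, neg_one_zsmul, ← map_neg] at hj'
  refine ⟨m, m - 1, by ring, h1, h2, by omega, (redV D U i').fD _ _ c', ?_, ?_⟩
  · rw [Red.proj_fD, hc', ← Red.k_comm, redV_cls0]
  · rw [Red.j_comm, hj', redV_cls0]

/-- The Bockstein of a permanent cycle is the class of an element of the tower of the sphere, whose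
image in filtration `s` is killed by `q`. -/
theorem perm_bock_int (H : Perm D U i x) (hx : Cob.d s x.1 = q • x₁.1) {m : ℤ}
    (h' : m + ((s + 1 : ℕ) : ℤ) = 2 * w) :
    ∃ c : (CS D U).D (s + 1) m, (CS D U).j (s + 1) m c = cls0 D U (s + 1) w m h' x₁ ∧
      q • (CS D U).i s m c = 0 := by
  obtain ⟨n, h, c, hj⟩ := H
  have hn : n = m + 1 := by push_cast at h'; omega
  obtain ⟨c', hj', hi⟩ := (bockV hC G).lift hn (cls0_d_eq hx hn h h') (c := c)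
    (by rw [bockV_fE]; exact hj)
  exact ⟨c', hj', by rw [hi, smul_neg, Bock.smul_δ, neg_zero]⟩

theorem perm_bock (H : Perm D U i x) (hx : Cob.d s x.1 = q • x₁.1) : Perm D U i' x₁ := by
  have h' : 2 * w - s - 1 + ((s + 1 : ℕ) : ℤ) = 2 * w := by push_cast; ring
  obtain ⟨c, hc, -⟩ := perm_bock_int hC G H hx h'
  exact ⟨_, h', (redV D U i').fD _ _ c, by rw [Red.j_comm, hc, redV_cls0]⟩

theorem bd_bock {t : ℕ} (H : Bd D U i t x) (hx : Cob.d s x.1 = q • x₁.1) : Bd D U i' t x₁ := by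
  obtain ⟨n, h, H⟩ := H
  have h' : n - 1 + ((s + 1 : ℕ) : ℤ) = 2 * w := by push_cast; omega
  obtain ⟨ht, c, hc, hj⟩ := (bockV hC G).null (show n = n - 1 + 1 by ring)
    (cls0_d_eq hx (by ring) h h') (r := t) (by rw [bockV_fE]; exact H)
  exact ⟨_, h', ht, (redV D U i').fD _ _ c, by rw [Red.proj_fD, hc, map_zero],
    by rw [Red.j_comm, hj, redV_cls0]⟩

theorem bd_bock_succ {t : ℕ} (H : Bd D U i t x) (hx : Cob.d s x.1 = q • x₁.1) (ht : t + 1 ≤ s) :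
    Bd D U i' (t + 1) x₁ := by
  obtain ⟨n, h, H⟩ := H
  have h' : n - 1 + ((s + 1 : ℕ) : ℤ) = 2 * w := by push_cast; omega
  obtain ⟨ht', c, hc, hj⟩ := (bockV hC G).null_succ (show n = n - 1 + 1 by ring)
    (cls0_d_eq hx (by ring) h h') ht (by rw [bockV_fE]; exact H)
  exact ⟨_, h', ht', (redV D U i').fD _ _ c, by rw [Red.proj_fD, hc, map_zero],
    by rw [Red.j_comm, hj, redV_cls0]⟩

end Moore

end Vale.Agent.P236S
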