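import Vale.Agent.P236S.Hit
import Vale.Agent.P251.B.Main

/-!
# P236, block BOCK: the geometric boundary theorem, abstract form

* `Bock C Cp q`: the structure on the couples `C` (tower `X`) and `Cp` (tower `X ⊗ S/q`);
* `Bock.lift`, `Bock.hits`, `Bock.null`: the boundary theorem for couples;
* `Mq F τ q`: a functor `F` which behaves like `- ⊗ S/q`; `Mq.tc`: the compatibility of the
  triangles `Y → Y → F Y` with an arbitrary triangle; `Mq.bock`: the structure `Bock` of a tower.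
-/

open CategoryTheory Limits Pretriangulated

set_option linter.unusedSectionVars false

universe v u

namespace Vale.Agent.P236S

open Vale.Agent.P251.S Vale.Agent.P251.B Vale.Agent.P257.H712

section Couples

variable {C Cp : Couple.{u, v}}

lemma Red.proj_fD (ρ : Red C Cp) (n : ℤ) {b a : ℕ} (h : b ≤ a) (y : C.D a n) :
    Cp.proj n h (ρ.fD a n y) = ρ.fD b n (C.proj n h y) := by
  induction a, h using Nat.le_induction with
  | base => rw [Couple.proj_self, Couple.proj_self]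
  | succ a h ih => rw [Couple.proj_succ _ n h, Couple.proj_succ _ n h, ρ.i_comm, ih]

variable (C Cp) in
/-- The reduction modulo `q` of a couple, with the boundary map. -/
structure Bock (q : ℤ) extends Red C Cp where
  /-- the boundary map -/
  δ : ∀ s n m, n = m + 1 → (Cp.D s n →+ C.D s m)
  δ_fD : ∀ s n m h y, δ s n m h (fD s n y) = 0
  smul_δ : ∀ s n m h y, q • δ s n m h y = 0
  ker : ∀ s n y, fD s n y = 0 → ∃ w, q • w = y
  i_δ : ∀ s n m h y, C.i s m (δ (s + 1) n m h y) = -δ s n m h (Cp.i s n y)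
  tf : ∀ s n (e : C.E s n), q • e = 0 → e = 0
  surj : ∀ s n, Function.Surjective (fE s n)
  tcA : ∀ s n m h (a : C.D s n) (x : C.E s n), C.j s n a = q • x →
    ∃ u : Cp.D (s + 1) n, Cp.i s n u = -fD s n a ∧ δ (s + 1) n m h u = C.k s n m h x
  tcB : ∀ s n m h (y : C.E s n) (c : C.D (s + 1) m), C.k s n m h y = q • c →
    ∃ c₀ : Cp.D s n, Cp.j s n c₀ = fE s n y ∧ δ s n m h c₀ = -C.i s m c

namespace Bock

variable {q : ℤ} (B : Bock C Cp q)

lemma j_δ {s : ℕ} {n m : ℤ} (h : n = m + 1) (y : Cp.D s n) : C.j s m (B.δ s n m h y) = 0 :=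
  B.tf _ _ _ (by rw [← map_zsmul, B.smul_δ, map_zero])

lemma δ_k {s : ℕ} {l n m : ℤ} (h' : l = n + 1) (h : n = m + 1) (e : Cp.E s l) :
    B.δ (s + 1) n m h (Cp.k s l n h' e) = 0 := by
  obtain ⟨e, rfl⟩ := B.surj s l e
  rw [B.k_comm, B.δ_fD]

lemma proj_δ {n m : ℤ} (h : n = m + 1) {b a : ℕ} (hba : b ≤ a) (y : Cp.D a n) :
    C.proj m hba (B.δ a n m h y) = (-1 : ℤ) ^ (a - b) • B.δ b n m h (Cp.proj n hba y) := by
  induction a, hba using Nat.le_induction with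
  | base => rw [Couple.proj_self, Couple.proj_self, Nat.sub_self, pow_zero, one_smul]
  | succ a hba ih =>
    rw [Couple.proj_succ _ m hba, Couple.proj_succ _ n hba, B.i_δ, proj_neg, ih,
      show a + 1 - b = (a - b) + 1 by omega, pow_succ, mul_neg_one, neg_smul]

/-- The boundary of an element has filtration one more, and its class is the Bockstein. -/
theorem lift {s : ℕ} {n m : ℤ} (h : n = m + 1) {y : C.E s n} {y₁ : C.E (s + 1) m}
    (hy : C.d s n m h y = q • y₁) {c : Cp.D s n} (hc : Cp.j s n c = B.fE s n y) :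
    ∃ c' : C.D (s + 1) m, C.j (s + 1) m c' = y₁ ∧ C.i s m c' = -B.δ s n m h c := by
  obtain ⟨c₁, hc₁⟩ := B.ker (s + 1) m (C.k s n m h y) (by rw [← B.k_comm, ← hc, Cp.k_j])
  obtain ⟨c₀, hj, hδ⟩ := B.tcB s n m h y c₁ hc₁.symm
  obtain ⟨w, hw⟩ := Cp.exact_j s n (c - c₀) (by rw [map_sub, hc, hj, sub_self])
  refine ⟨c₁ + B.δ (s + 1) n m h w, ?_, ?_⟩
  · rw [map_add, B.j_δ, add_zero, ← sub_eq_zero]
    apply B.tf
    rw [smul_sub, ← map_zsmul, hc₁, ← hy, C.d_apply, sub_self]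
  · rw [map_add, B.i_δ, hw, map_sub, hδ]
    abel

/-- **The geometric boundary theorem** for differentials. -/
theorem hits {s s' : ℕ} {n m l : ℤ} (h : n = m + 1) (h' : m = l + 1) (hs : s + 2 ≤ s')
    {x : C.E s n} {x₁ : C.E (s + 1) m} (hx : C.d s n m h x = q • x₁)
    {y : C.E s' m} {y₁ : C.E (s' + 1) l} (hy : C.d s' m l h' y = q • y₁)
    {c : Cp.D s' m} (hc : Cp.proj m (by omega) c = Cp.k s n m h (B.fE s n x))
    (hj : Cp.j s' m c = B.fE s' m y) :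
    ∃ c' : C.D (s' + 1) l, C.proj l (by omega) c' = C.k (s + 1) m l h' x₁ ∧
      C.j (s' + 1) l c' = (-1 : ℤ) ^ (s' - s) • y₁ := by
  obtain ⟨c', hc'j, hc'i⟩ := B.lift h' hy hj
  obtain ⟨u, hui, huδ⟩ := B.tcA (s + 1) m l h' (C.k s n m h x) x₁ hx
  obtain ⟨w, hw⟩ := Cp.exact_i (s + 1) (m + 1) m rfl (Cp.proj m hs c + u) (by
    rw [map_add, Cp.i_proj m hs, hc, hui, B.k_comm, add_neg_cancel])
  have h1 : B.δ (s + 2) m l h' (Cp.proj m hs c) = -C.k (s + 1) m l h' x₁ := by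
    have h2 := B.δ_k rfl h' w
    rw [hw, map_add, huδ] at h2
    exact eq_neg_of_add_eq_zero_left h2
  refine ⟨(-1 : ℤ) ^ (s' - s) • c', ?_, by rw [map_zsmul, hc'j]⟩
  rw [proj_zsmul, C.proj_succ l hs, hc'i, proj_neg, B.proj_δ, h1,
    smul_neg ((-1 : ℤ) ^ (s' - (s + 2))), neg_neg, smul_smul, ← pow_add, show s' - s + (s' - (s + 2)) = 2 * (s' - s - 1) by omega, pow_mul]
  simp

/-- **The geometric boundary theorem** for boundaries. -/
theorem null {r s : ℕ} {n m : ℤ} (h : n = m + 1) {y : C.E s n} {y₁ : C.E (s + 1) m}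
    (hy : C.d s n m h y = q • y₁) (H : Null Cp r (B.fE s n y)) : Null C r y₁ := by
  obtain ⟨hr, c, hc, hj⟩ := H
  obtain ⟨c', hc'j, hc'i⟩ := B.lift h hy hj
  refine ⟨by omega, c', ?_, hc'j⟩
  rw [C.proj_succ m hr, hc'i, proj_neg, B.proj_δ, hc, map_zero, smul_zero, neg_zero]

theorem null_succ {r s : ℕ} {n m : ℤ} (h : n = m + 1) {y : C.E s n} {y₁ : C.E (s + 1) m}
    (hy : C.d s n m h y = q • y₁) (hr : r + 1 ≤ s) (H : Null Cp r (B.fE s n y)) :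
    Null C (r + 1) y₁ := by
  obtain ⟨_, c, hc, hj⟩ := H
  obtain ⟨c', hc'j, hc'i⟩ := B.lift h hy hj
  obtain ⟨w, hw⟩ := Cp.exact_i r (n + 1) n rfl (Cp.proj n hr c) (by rw [Cp.i_proj n hr, hc])
  refine ⟨by omega, c', ?_, hc'j⟩
  rw [C.proj_succ m hr, hc'i, proj_neg, B.proj_δ, ← hw, B.δ_k, smul_zero, neg_zero]

end Bock

end Couples

section Cat

variable {T : Type u} [Category.{v} T] [Preadditive T] [HasZeroObject T] [HasShift T ℤ]
  [∀ n : ℤ, (shiftFunctor T n).Additive] [Pretriangulated T]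
  (F : T ⥤ T) [F.CommShift ℤ] [F.IsTriangulated] (τ : 𝟭 T ⟶ F) [NatTrans.CommShift τ ℤ]

/-- A functor which behaves like the tensor product with the Moore object `S/q`. -/
structure Mq (q : ℤ) where
  /-- the boundary map -/
  bd : ∀ Y : T, F.obj Y ⟶ Y⟦(1 : ℤ)⟧
  nat : ∀ {Y Z : T} (f : Y ⟶ Z), F.map f ≫ bd Z = bd Y ≫ f⟦(1 : ℤ)⟧'
  dist : ∀ Y : T, Triangle.mk (q • 𝟙 Y) (τ.app Y) (bd Y) ∈ distTriang T
  sign : ∀ Y : T, (F.commShiftIso (1 : ℤ)).hom.app Y ≫ (bd Y)⟦(1 : ℤ)⟧' = -bd (Y⟦(1 : ℤ)⟧)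

/-- The component of `τ`, with its type. -/
def red (Y : T) : Y ⟶ F.obj Y := τ.app Y

/-- The commutation isomorphism, with its type. -/
noncomputable def cm (Y : T) : F.obj (Y⟦(1 : ℤ)⟧) ⟶ (F.obj Y)⟦(1 : ℤ)⟧ :=
  (F.commShiftIso (1 : ℤ)).hom.app Y

@[reassoc]
lemma red_nat {Y Z : T} (f : Y ⟶ Z) : f ≫ red F τ Z = red F τ Y ≫ F.map f := τ.naturality f

@[reassoc]
lemma cm_nat {Y Z : T} (f : Y ⟶ Z) :
    F.map (f⟦(1 : ℤ)⟧') ≫ cm F Z = cm F Y ≫ (F.map f)⟦(1 : ℤ)⟧' :=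
  (F.commShiftIso (1 : ℤ)).hom.naturality f

@[reassoc]
lemma red_cm (Y : T) : red F τ (Y⟦(1 : ℤ)⟧) ≫ cm F Y = (red F τ Y)⟦(1 : ℤ)⟧' := by
  have h := NatTrans.shift_app_comm τ (1 : ℤ) Y
  rw [Functor.commShiftIso_id_hom_app] at h
  exact h.symm.trans (Category.id_comp _)

namespace Mq

variable {F τ} {q : ℤ} (M : Mq F τ q)

lemma dist' (Y : T) : Triangle.mk (q • 𝟙 Y) (red F τ Y) (M.bd Y) ∈ distTriang T := M.dist Y

lemma sign' (Y : T) : cm F Y ≫ (M.bd Y)⟦(1 : ℤ)⟧' = -M.bd (Y⟦(1 : ℤ)⟧) := M.sign Y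

@[reassoc]
lemma red_bd (Y : T) : red F τ Y ≫ M.bd Y = 0 := comp_distTriang_mor_zero₂₃ _ (M.dist' Y)

include M in
lemma smul_red (Y : T) : q • red F τ Y = 0 := by
  have h : (q • 𝟙 Y) ≫ red F τ Y = 0 := comp_distTriang_mor_zero₁₂ _ (M.dist' Y)
  rwa [Preadditive.zsmul_comp, Category.id_comp] at h

lemma smul_bd (Y : T) : q • M.bd Y = 0 := by
  have h : M.bd Y ≫ (q • 𝟙 Y)⟦(1 : ℤ)⟧' = 0 := comp_distTriang_mor_zero₃₁ _ (M.dist' Y)
  rwa [Functor.map_zsmul, CategoryTheory.Functor.map_id, Preadditive.comp_zsmul,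
    Category.comp_id] at h

variable {P : T} (hP : ∀ f : P ⟶ P⟦(1 : ℤ)⟧, f = 0)

include hP

lemma cancel_bd (g : P⟦(1 : ℤ)⟧ ⟶ (F.obj P)⟦(1 : ℤ)⟧) (hg : M.bd P ≫ g = 0) : g = 0 := by
  obtain ⟨w, hw⟩ : ∃ w : P⟦(1 : ℤ)⟧ ⟶ (F.obj P)⟦(1 : ℤ)⟧,
      g = (-(q • 𝟙 P)⟦(1 : ℤ)⟧') ≫ w :=
    Triangle.yoneda_exact₃ _ (rot_of_distTriang _ (M.dist' P)) g hg
  obtain ⟨w, rfl⟩ := (shiftFunctor T (1 : ℤ)).map_surjective w
  obtain ⟨e, he⟩ : ∃ e : P ⟶ P, w = e ≫ red F τ P :=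
    Triangle.coyoneda_exact₃ _ (M.dist' P) w (hP _)
  rw [hw, he, Preadditive.neg_comp, ← Functor.map_comp, Preadditive.zsmul_comp, Category.id_comp,
    ← Preadditive.comp_zsmul, M.smul_red, comp_zero, Functor.map_zero, neg_zero]

/-- The class in `π₁ (S/q ⊗ S/q)`. -/
lemma exists_ups : ∃ υ : P⟦(1 : ℤ)⟧ ⟶ F.obj (F.obj P),
    υ ≫ F.map (M.bd P) ≫ cm F P = -(red F τ P)⟦(1 : ℤ)⟧' ∧
      υ ≫ M.bd (F.obj P) = (red F τ P)⟦(1 : ℤ)⟧' := by
  obtain ⟨υ, hυ⟩ : ∃ υ : P⟦(1 : ℤ)⟧ ⟶ F.obj (F.obj P),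
      F.map (red F τ P) - red F τ (F.obj P) = M.bd P ≫ υ :=
    Triangle.yoneda_exact₃ _ (M.dist' P) _ (by
      change red F τ P ≫ (F.map (red F τ P) - red F τ (F.obj P)) = 0
      rw [Preadditive.comp_sub, red_nat, sub_self])
  refine ⟨υ, ?_, ?_⟩
  · rw [← sub_eq_zero]
    apply M.cancel_bd hP
    rw [Preadditive.comp_sub, ← Category.assoc, ← hυ, Preadditive.sub_comp,
      ← F.map_comp_assoc, M.red_bd, F.map_zero, zero_comp, ← red_nat_assoc, red_cm,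
      Preadditive.comp_neg, sub_neg_eq_add, zero_sub, neg_add_cancel]
  · rw [← sub_eq_zero]
    apply M.cancel_bd hP
    rw [Preadditive.comp_sub, ← Category.assoc, ← hυ, Preadditive.sub_comp, M.nat, M.red_bd,
      sub_zero, sub_self]

/-- The compatibility of the reduction modulo `q` with a distinguished triangle. -/
theorem tc {Y Z X : T} {g : Y ⟶ Z} {b : Z ⟶ X} {c : X ⟶ Y⟦(1 : ℤ)⟧}
    (hΔ : Triangle.mk g b c ∈ distTriang T) (a : P ⟶ Y) (x : P ⟶ Z) (h : a ≫ g = q • x) :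
    ∃ u : P⟦(1 : ℤ)⟧ ⟶ F.obj X, u ≫ F.map c ≫ cm F Y = -(a ≫ red F τ Y)⟦(1 : ℤ)⟧' ∧
      u ≫ M.bd X = (x ≫ b)⟦(1 : ℤ)⟧' := by
  obtain ⟨φ, h1, h2⟩ : ∃ φ : F.obj P ⟶ X, red F τ P ≫ φ = x ≫ b ∧
      M.bd P ≫ a⟦(1 : ℤ)⟧' = φ ≫ c :=
    complete_distinguished_triangle_morphism _ _ (M.dist' P) hΔ a x (by
      change (q • 𝟙 P) ≫ x = a ≫ g
      rw [h, Preadditive.zsmul_comp, Category.id_comp])
  obtain ⟨υ, h3, h4⟩ := M.exists_ups hP
  refine ⟨υ ≫ F.map φ, ?_, ?_⟩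
  · rw [Category.assoc, ← F.map_comp_assoc, ← h2, F.map_comp, Category.assoc, cm_nat,
      reassoc_of% h3, red_nat, Functor.map_comp, Preadditive.neg_comp]
  · rw [Category.assoc, M.nat, reassoc_of% h4, ← Functor.map_comp, h1]

omit hP

variable (X : Tow T) (P : T)

/-- The boundary map on `D`. -/
noncomputable def δD (s : ℕ) (n m : ℤ) (h : n = m + 1) :
    ((X.map F).couple P).D s n →+ (X.couple P).D s m :=
  (AddMonoidHom.mk' (fun (y : P⟦n + (s : ℤ)⟧ ⟶ F.obj (X.J s)) =>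
      (sh (m + (s : ℤ)) 1 (n + (s : ℤ)) (by rw [h]; ring)).symm (y ≫ M.bd (X.J s)))
    (fun x y => by rw [Preadditive.add_comp, map_add]) :
    (P⟦n + (s : ℤ)⟧ ⟶ F.obj (X.J s)) →+ (P⟦m + (s : ℤ)⟧ ⟶ X.J s))

/-- `eD` with its type. -/
def eF {s : ℕ} {n t : ℤ} (h : n + (s : ℤ) = t) :
    ((X.map F).couple P).D s n ≃+ (P⟦t⟧ ⟶ F.obj (X.J s)) := (X.map F).eD P h

/-- `eE` with its type. -/
def eG {s : ℕ} {n t : ℤ} (h : n + (s : ℤ) = t) :
    ((X.map F).couple P).E s n ≃+ (P⟦t⟧ ⟶ F.obj (X.W s)) := (X.map F).eE P h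

lemma eD_δD {s : ℕ} {n m t t' : ℤ} (h : n = m + 1) (h1 : m + (s : ℤ) = t)
    (h2 : n + (s : ℤ) = t') (ht : t + 1 = t') (y : ((X.map F).couple P).D s n) :
    sh t 1 t' ht (X.eD P h1 (M.δD X P s n m h y)) = eF X P h2 y ≫ M.bd (X.J s) := by
  subst h1; subst h2
  exact AddEquiv.apply_symm_apply _ _

lemma eF_i {s : ℕ} {n t t' : ℤ} (h : n + (s : ℤ) = t) (h' : n + ((s + 1 : ℕ) : ℤ) = t')
    (ht : t + 1 = t') (y : ((X.map F).couple P).D (s + 1) n) :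
    sh t 1 t' ht (eF X P h (((X.map F).couple P).i s n y)) =
      eF X P h' y ≫ F.map (X.c s) ≫ cm F (X.J s) :=
  (X.map F).eD_i P h h' ht y

lemma eG_j {s : ℕ} {n t : ℤ} (h : n + (s : ℤ) = t) (y : ((X.map F).couple P).D s n) :
    eG X P h (((X.map F).couple P).j s n y) = eF X P h y ≫ F.map (X.a s) :=
  (X.map F).eE_j P h y

lemma eF_fD {s : ℕ} {n t : ℤ} (h : n + (s : ℤ) = t) (y : (X.couple P).D s n) :
    eF X P h ((mapUnit X τ).fD P s n y) = X.eD P h y ≫ red F τ (X.J s) :=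
  (mapUnit X τ).eD_fD P h y

lemma eG_fE {s : ℕ} {n t : ℤ} (h : n + (s : ℤ) = t) (y : (X.couple P).E s n) :
    eG X P h ((mapUnit X τ).fE P s n y) = X.eE P h y ≫ red F τ (X.W s) :=
  (mapUnit X τ).eE_fE P h y

lemma sh_apply {Y : T} (t k t' : ℤ) (h : t + k = t') (f : P⟦t⟧ ⟶ Y) :
    sh t k t' h f = (shiftFunctorAdd' T t k t' h).hom.app P ≫ f⟦k⟧' := rfl

/-- The structure `Bock` of a tower. -/
noncomputable def bock (hP : ∀ (t : ℤ) (f : P⟦t⟧ ⟶ (P⟦t⟧)⟦(1 : ℤ)⟧), f = 0)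
    (hs : ∀ s n, Function.Surjective ((mapUnit X τ).fE P s n)) :
    Bock (X.couple P) ((X.map F).couple P) q where
  fD := (mapUnit X τ).fD P
  fE := (mapUnit X τ).fE P
  i_comm := (mapUnit X τ).i_fD P
  j_comm := (mapUnit X τ).j_fD P
  k_comm := (mapUnit X τ).k_fE P
  δ := M.δD X P
  δ_fD s n m h y := by
    have ht : m + (s : ℤ) + 1 = n + (s : ℤ) := by rw [h]; ring
    apply (X.eD P (rfl : m + (s : ℤ) = _)).injective
    apply (sh _ 1 _ ht).injective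
    rw [M.eD_δD X P h rfl rfl ht, eF_fD, Category.assoc, M.red_bd, comp_zero, map_zero, map_zero]
  smul_δ s n m h y := by
    have ht : m + (s : ℤ) + 1 = n + (s : ℤ) := by rw [h]; ring
    apply (X.eD P (rfl : m + (s : ℤ) = _)).injective
    apply (sh _ 1 _ ht).injective
    rw [map_zsmul, map_zsmul, M.eD_δD X P h rfl rfl ht, ← Preadditive.comp_zsmul, M.smul_bd,
      comp_zero, map_zero, map_zero]
  ker s n y hy := by
    have h1 := eF_fD (τ := τ) X P (rfl : n + (s : ℤ) = _) y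
    rw [hy, map_zero] at h1
    obtain ⟨g, hg⟩ : ∃ g : P⟦n + (s : ℤ)⟧ ⟶ X.J s, X.eD P rfl y = g ≫ (q • 𝟙 (X.J s)) :=
      Triangle.coyoneda_exact₂ _ (M.dist' (X.J s)) _ h1.symm
    refine ⟨(X.eD P rfl).symm g, (X.eD P (rfl : n + (s : ℤ) = _)).injective ?_⟩
    rw [map_zsmul, AddEquiv.apply_symm_apply, hg, Preadditive.comp_zsmul, Category.comp_id]
  i_δ s n m h y := by
    have h1 : m + ((s + 1 : ℕ) : ℤ) = m + (s : ℤ) + 1 := by push_cast; ring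
    have h2 : n + (s : ℤ) = m + (s : ℤ) + 1 := by rw [h]; ring
    have h3 : n + ((s + 1 : ℕ) : ℤ) = m + (s : ℤ) + 1 + 1 := by rw [h]; push_cast; ring
    apply (X.eD P (rfl : m + (s : ℤ) = _)).injective
    apply (sh (m + (s : ℤ)) 1 _ rfl).injective
    apply (sh (m + (s : ℤ) + 1) 1 _ rfl).injective
    rw [X.eD_i P rfl h1 rfl, sh_comp, M.eD_δD X P h h1 h3 rfl, map_neg, map_neg, map_neg,
      M.eD_δD X P h rfl h2 rfl, sh_comp, eF_i X P h2 h3 rfl, Category.assoc, Category.assoc,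
      Category.assoc, M.sign', Preadditive.comp_neg, Preadditive.comp_neg, neg_neg, M.nat]
  tf s n e he := by
    obtain ⟨g, hg⟩ : ∃ g : P⟦n + (s : ℤ) + 1⟧ ⟶ F.obj (X.W s),
        sh (n + (s : ℤ)) 1 _ rfl (X.eE P rfl e) = g ≫ M.bd (X.W s) :=
      Triangle.coyoneda_exact₁ _ (M.dist' (X.W s)) _ (by
        change sh (n + (s : ℤ)) 1 _ rfl (X.eE P rfl e) ≫ (q • 𝟙 (X.W s))⟦(1 : ℤ)⟧' = 0
        rw [← sh_comp, Preadditive.comp_zsmul, Category.comp_id, ← map_zsmul, he, map_zero,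
          map_zero])
    have h1 : n + 1 + (s : ℤ) = n + (s : ℤ) + 1 := by ring
    obtain ⟨g', hg'⟩ := hs s (n + 1) ((eG X P h1).symm g)
    have h2 := eG_fE (τ := τ) X P h1 g'
    rw [hg', AddEquiv.apply_symm_apply] at h2
    rw [h2, Category.assoc, M.red_bd, comp_zero] at hg
    apply (X.eE P (rfl : n + (s : ℤ) = _)).injective
    apply (sh (n + (s : ℤ)) 1 _ rfl).injective
    rw [hg, map_zero, map_zero]
  surj := hs
  tcA s n m h a x hx := by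
    have h1 : n + ((s + 1 : ℕ) : ℤ) = n + (s : ℤ) + 1 := by push_cast; ring
    have h2 : m + ((s + 1 : ℕ) : ℤ) = n + (s : ℤ) := by rw [h]; push_cast; ring
    obtain ⟨u, hu1, hu2⟩ := M.tc (hP (n + (s : ℤ))) (X.dist s) (X.eD P rfl a) (X.eE P rfl x) (by
      rw [← X.eE_j, hx, map_zsmul])
    refine ⟨(eF X P h1).symm
      ((shiftFunctorAdd' T (n + (s : ℤ)) 1 _ rfl).hom.app P ≫ u), ?_, ?_⟩
    · apply (eF X P (rfl : n + (s : ℤ) = _)).injective
      apply (sh (n + (s : ℤ)) 1 _ rfl).injective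
      rw [eF_i X P rfl h1 rfl, AddEquiv.apply_symm_apply, map_neg, map_neg, eF_fD, sh_apply,
        ← Preadditive.comp_neg, ← hu1]
      exact Category.assoc _ _ _
    · apply (X.eD P h2).injective
      apply (sh (n + (s : ℤ)) 1 _ rfl).injective
      rw [M.eD_δD X P h h2 h1 rfl, AddEquiv.apply_symm_apply, X.eD_k P h rfl h2, sh_apply, ← hu2]
      exact Category.assoc _ _ _
  tcB s n m h y c hc := by
    have h2 : m + ((s + 1 : ℕ) : ℤ) = n + (s : ℤ) := by rw [h]; push_cast; ring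
    have h3 : m + (s : ℤ) + 1 = n + (s : ℤ) := by rw [h]; ring
    obtain ⟨u, hu1, hu2⟩ := M.tc (hP (n + (s : ℤ))) (rot_of_distTriang _ (X.dist s))
      (g := X.b s) (b := X.c s) (c := -(X.a s)⟦(1 : ℤ)⟧') (X.eE P rfl y) (X.eD P h2 c) (by
        rw [← X.eD_k P h rfl h2, hc, map_zsmul])
    obtain ⟨c₀, hc₀⟩ := (shiftFunctor T (1 : ℤ)).map_surjective (u ≫ cm F (X.J s))
    refine ⟨(eF X P rfl).symm c₀, ?_, ?_⟩
    · apply (eG X P (rfl : n + (s : ℤ) = _)).injective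
      apply (shiftFunctor T (1 : ℤ)).map_injective
      rw [F.map_neg, Preadditive.neg_comp, Preadditive.comp_neg, neg_inj] at hu1
      rw [eG_j, AddEquiv.apply_symm_apply, eG_fE, Functor.map_comp, hc₀, Category.assoc,
        ← cm_nat, hu1]
    · apply (X.eD P (rfl : m + (s : ℤ) = _)).injective
      apply (sh (m + (s : ℤ)) 1 _ h3).injective
      rw [M.eD_δD X P h rfl rfl h3, AddEquiv.apply_symm_apply, map_neg, map_neg,
        X.eD_i P rfl h2 h3]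
      apply (shiftFunctor T (1 : ℤ)).map_injective
      rw [Functor.map_comp, hc₀, Category.assoc, M.sign', Preadditive.comp_neg, hu2,
        Functor.map_neg]

end Mq

end Cat

end Vale.Agent.P236S
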