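import Vale.Agent.P236S.Hit
import Vale.Agent.P257.H712.Trans
import Vale.Agent.P257.H545.CupRing1

/-!
# P236, block SEEDS: classes of cochains in the couple of `V`

* `preD`, `preE`: the action of an endomorphism of the test object on the couple of a tower;
* `cls α h x`: the class in `E₁` of the tower of `V` of a homogeneous cochain `x`;
* `null_cls_iff`: `Null` does not depend on the identification `α` of the spheres;
* `j_M₁`: the multiplication by a class of filtration one on `E₁` is the cup product.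
-/

open CategoryTheory MonoidalCategory Limits Pretriangulated MonObj

set_option linter.unusedSectionVars false

universe v u

namespace Vale.Agent.P236S

open Vale.Agent.P251 Vale.Agent.P251.T Vale.Agent.P251.F Vale.Agent.P251.I
  Vale.Agent.P251.M Vale.Agent.P257.H314 Vale.Agent.P257.H712
open Vale.Agent.P251.S hiding IC

section Pre

variable {T : Type u} [Category.{v} T] [Preadditive T] [HasZeroObject T] [HasShift T ℤ]
  [∀ n : ℤ, (shiftFunctor T n).Additive] [Pretriangulated T] (X : Tow T) {P : T} (u : P ⟶ P)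

lemma sh_pre {Y : T} (t k t' : ℤ) (h : t + k = t') (f : P⟦t⟧ ⟶ Y) :
    sh t k t' h (u⟦t⟧' ≫ f) = u⟦t'⟧' ≫ sh t k t' h f := by
  have h1 := (shiftFunctorAdd' T t k t' h).hom.naturality u
  change u⟦t'⟧' ≫ _ = _ ≫ (u⟦t⟧')⟦k⟧' at h1
  change (shiftFunctorAdd' T t k t' h).hom.app P ≫ (u⟦t⟧' ≫ f)⟦k⟧' =
    u⟦t'⟧' ≫ (shiftFunctorAdd' T t k t' h).hom.app P ≫ f⟦k⟧'
  rw [Functor.map_comp, ← Category.assoc, ← h1, Category.assoc]

/-- The action on `D`. -/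
noncomputable def preD (s : ℕ) (n : ℤ) : (X.couple P).D s n →+ (X.couple P).D s n :=
  (AddMonoidHom.mk' (fun (y : P⟦n + (s : ℤ)⟧ ⟶ X.J s) => u⟦n + (s : ℤ)⟧' ≫ y)
    (fun x y => Preadditive.comp_add _ _ _ _ x y) :
    (P⟦n + (s : ℤ)⟧ ⟶ X.J s) →+ (P⟦n + (s : ℤ)⟧ ⟶ X.J s))

/-- The action on `E`. -/
noncomputable def preE (s : ℕ) (n : ℤ) : (X.couple P).E s n →+ (X.couple P).E s n :=
  (AddMonoidHom.mk' (fun (y : P⟦n + (s : ℤ)⟧ ⟶ X.W s) => u⟦n + (s : ℤ)⟧' ≫ y)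
    (fun x y => Preadditive.comp_add _ _ _ _ x y) :
    (P⟦n + (s : ℤ)⟧ ⟶ X.W s) →+ (P⟦n + (s : ℤ)⟧ ⟶ X.W s))

lemma eE_preE {s : ℕ} {n t : ℤ} (h : n + (s : ℤ) = t) (y : (X.couple P).E s n) :
    X.eE P h (preE X u s n y) = u⟦t⟧' ≫ X.eE P h y := by
  subst h; rfl

lemma eD_preD {s : ℕ} {n t : ℤ} (h : n + (s : ℤ) = t) (y : (X.couple P).D s n) :
    X.eD P h (preD X u s n y) = u⟦t⟧' ≫ X.eD P h y := by
  subst h; rfl

lemma i_preD (s : ℕ) (n : ℤ) (y : (X.couple P).D (s + 1) n) :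
    (X.couple P).i s n (preD X u (s + 1) n y) = preD X u s n ((X.couple P).i s n y) := by
  have h1 : n + (s : ℤ) + 1 = n + ((s + 1 : ℕ) : ℤ) := by push_cast; ring
  apply (X.eD P (rfl : n + (s : ℤ) = _)).injective
  apply (sh (n + (s : ℤ)) 1 _ h1).injective
  rw [X.eD_i P rfl rfl h1, eD_preD, eD_preD, sh_pre, X.eD_i P rfl rfl h1, Category.assoc]

lemma j_preD (s : ℕ) (n : ℤ) (y : (X.couple P).D s n) :
    (X.couple P).j s n (preD X u s n y) = preE X u s n ((X.couple P).j s n y) := by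
  apply (X.eE P (rfl : n + (s : ℤ) = _)).injective
  rw [X.eE_j, eD_preD, eE_preE, X.eE_j, Category.assoc]

lemma k_preE (s : ℕ) (n m : ℤ) (h : n = m + 1) (z : (X.couple P).E s n) :
    (X.couple P).k s n m h (preE X u s n z) =
      preD X u (s + 1) m ((X.couple P).k s n m h z) := by
  have h2 : m + ((s + 1 : ℕ) : ℤ) = n + (s : ℤ) := by rw [h]; push_cast; ring
  apply (X.eD P h2).injective
  rw [X.eD_k P h rfl h2, eD_preD, eE_preE, X.eD_k P h rfl h2, Category.assoc]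

lemma proj_preD (n : ℤ) {b a : ℕ} (h : b ≤ a) (y : (X.couple P).D a n) :
    (X.couple P).proj n h (preD X u a n y) = preD X u b n ((X.couple P).proj n h y) := by
  induction a, h using Nat.le_induction with
  | base => rw [Couple.proj_self, Couple.proj_self]
  | succ a h ih => rw [Couple.proj_succ _ n h, Couple.proj_succ _ n h, i_preD, ih]

lemma preD_eq_zero [IsIso u] {s : ℕ} {n : ℤ} {y : (X.couple P).D s n}
    (h : preD X u s n y = 0) : y = 0 := by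
  apply (X.eD P (rfl : n + (s : ℤ) = _)).injective
  have h1 := congrArg (X.eD P (rfl : n + (s : ℤ) = _)) h
  rw [eD_preD, map_zero] at h1
  rw [map_zero, ← cancel_epi (u⟦n + (s : ℤ)⟧'), h1, comp_zero]

lemma null_preE {r s : ℕ} {n : ℤ} {y : (X.couple P).E s n} (hy : Null (X.couple P) r y) :
    Null (X.couple P) r (preE X u s n y) := by
  obtain ⟨h, c, hc, rfl⟩ := hy
  exact ⟨h, preD X u s n c, by rw [proj_preD, hc, map_zero], j_preD X u s n c⟩

lemma Hits.preE {s t : ℕ} {m : ℤ} {e : (X.couple P).E s (m + 1)} {y : (X.couple P).E t m}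
    (h : Hits e y) : Hits (preE X u s (m + 1) e) (preE X u t m y) := by
  obtain ⟨h, c, hc, rfl⟩ := h
  exact ⟨h, preD X u t m c, by rw [proj_preD, hc, k_preE], j_preD X u t m c⟩

end Pre

section Cup1

variable {T : Type u} [Category.{v} T] [Preadditive T] [HasZeroObject T] [HasShift T ℤ]
  [∀ n : ℤ, (shiftFunctor T n).Additive] [Pretriangulated T] [MonoidalCategory T]
  [SymmetricCategory T] [TensorTriangulated T] {R : T} [MonObj R] (U : UnitCof R)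

lemma cup1_q {Y' Y : T} (z : Y' ⟶ U.cobar.Q 2 Y) (x : Y' ⟶ U.cobar.B 1 Y)
    (hz : z ≫ U.cobar.q 1 Y = x ≫ unitMap R (U.cobar.B 1 Y)) (s : ℕ) :
    P257.H820.cup1 U z s ≫ U.cobar.q (s + 1) Y = U.cobar.q s Y' ≫ (R ◁ U.cobar.Bm s x) := by
  let K := U.cobar
  have hq : K.q 1 Y = K.M.map (K.ρ Y) := by
    rw [CobarData.q_succ, CobarData.q_zero, Category.comp_id, CobarData.Qm_succ,
      CobarData.Qm_zero]
  have hz' : z ≫ K.q 1 Y = x ≫ K.un (K.B 1 Y) := hz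
  have h1 : (K.M.map z ≫ K.mu (K.M.obj Y)) ≫ K.q 1 Y = K.M.map x := by
    rw [hq, Category.assoc, ← K.mu_nat, ← Functor.map_comp_assoc, ← hq, hz',
      Functor.map_comp, Category.assoc, K.right_unit, Category.comp_id]
  have h2 : K.q (s + 1) Y = K.Qm s (K.q 1 Y) ≫ K.q s (K.G.obj Y) := by
    rw [CobarData.q_succ, hq]
    rfl
  have h3 : P257.H820.cup1 U z s = K.Qm s (K.M.map z ≫ K.mu (K.M.obj Y)) := rfl
  change P257.H820.cup1 U z s ≫ K.q (s + 1) Y = K.q s Y' ≫ K.M.map (K.Bm s x)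
  rw [h2, h3, ← Category.assoc, ← CobarData.Qm_comp, h1, ← CobarData.q_naturality]
  rfl

variable (P : T) {F : T ⥤ T} [F.CommShift ℤ] [F.IsTriangulated] (τ : 𝟭 T ⟶ F)
  [NatTrans.CommShift τ ℤ]

lemma eD_M₁ {k a : ℤ} (hk : k = a + 1) (m : ℕ) (hm : k = 2 * (m : ℤ))
    (x : (𝟙_ T)⟦k⟧ ⟶ U.cobar.B 1 (𝟙_ T)) {s : ℕ} {n t t' : ℤ} (h : n + (s : ℤ) = t)
    (h' : n + a + ((s + 1 : ℕ) : ℤ) = t') (ht : t + k = t')
    (y : (((U.tow (𝟙_ T)).map F).couple P).D s n) :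
    ((U.tow (𝟙_ T)).map F).eD P h' ((M₁ U P F hk m hm x).μ s n y) =
      sh t k t' ht (((U.tow (𝟙_ T)).map F).eD P h y) ≫
        (F.commShiftIso k).inv.app (U.cobar.B s (𝟙_ T)) ≫ F.map (ξ1 U k x s) := by
  subst h; subst h'
  rfl

/-- The multiplication by a class of filtration one is the cup product on `E₁`. -/
lemma j_M₁ {k a : ℤ} (hk : k = a + 1) (m : ℕ) (hm : k = 2 * (m : ℤ))
    (x : (𝟙_ T)⟦k⟧ ⟶ U.cobar.B 1 (𝟙_ T)) (z : (𝟙_ T)⟦k⟧ ⟶ U.cobar.Q 2 (𝟙_ T))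
    (hz : z ≫ U.cobar.q 1 (𝟙_ T) = x ≫ unitMap R (U.cobar.B 1 (𝟙_ T)))
    {s : ℕ} {n t t' : ℤ} (h : n + (s : ℤ) = t)
    (h' : n + a + ((s + 1 : ℕ) : ℤ) = t') (ht : t + k = t')
    (y : (((U.tow (𝟙_ T)).map F).couple P).D s n) (f : P⟦t⟧ ⟶ U.cobar.Q (s + 1) (𝟙_ T))
    (hy : (((U.tow (𝟙_ T)).map F).couple P).j s n y = qE U P τ h f) :
    (((U.tow (𝟙_ T)).map F).couple P).j (s + 1) (n + a) ((M₁ U P F hk m hm x).μ s n y) =
      qE U P τ h' (sh t k t' ht f ≫ U.κQ k (s + 1) (𝟙_ T) ≫ P257.H820.cup1 U z s) := by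
  let X := (U.tow (𝟙_ T)).map F
  let B := U.cobar.B s (𝟙_ T)
  apply (X.eE P h').injective
  have h1 : X.eD P h y ≫ F.map (unitMap R B) =
      (f ≫ U.cobar.q s (𝟙_ T)) ≫ τ.app _ := by
    rw [← eE_qE U P τ h f, ← hy]
    exact (X.eE_j P h y).symm
  let ζ : (R ⊗ B)⟦k⟧ ⟶ R ⊗ U.cobar.B (s + 1) (𝟙_ T) := (csh R k B).inv ≫ (R ◁ ξ1 U k x s)
  have h2 : (unitMap R B)⟦k⟧' ≫ ζ = ξ1 U k x s ≫ unitMap R _ := by
    rw [← unitMap_csh_assoc, Iso.hom_inv_id_assoc, unitMap_nat]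
  have h3 := (F.commShiftIso k).inv.naturality (unitMap R B)
  change (F.map (unitMap R B))⟦k⟧' ≫ _ = _ ≫ F.map ((unitMap R B)⟦k⟧') at h3
  have h4 : (U.κQ k (s + 1) (𝟙_ T) ≫ P257.H820.cup1 U z s) ≫ U.cobar.q (s + 1) (𝟙_ T) =
      (U.cobar.q s (𝟙_ T))⟦k⟧' ≫ ζ := by
    rw [Category.assoc, cup1_q U z x hz s, UnitCof.κQ_q_assoc]
    change _ = _ ≫ (csh R k B).inv ≫ (R ◁ (U.κB k s (𝟙_ T) ≫ U.cobar.Bm s x))
    rw [MonoidalCategory.whiskerLeft_comp]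
  rw [eE_qE, X.eE_j P h']
  refine (congrArg (· ≫ X.a (s + 1)) (eD_M₁ U P hk m hm x h h' ht y)).trans ?_
  have key : ∀ g : P⟦t⟧ ⟶ F.obj B,
      g ≫ F.map (unitMap R B) = (f ≫ U.cobar.q s (𝟙_ T)) ≫ τ.app _ →
      (sh t k t' ht g ≫ (F.commShiftIso k).inv.app B ≫ F.map (ξ1 U k x s)) ≫
        F.map (unitMap R (U.cobar.B (s + 1) (𝟙_ T))) =
      ((sh t k t' ht f ≫ U.κQ k (s + 1) (𝟙_ T) ≫ P257.H820.cup1 U z s) ≫
        U.cobar.q (s + 1) (𝟙_ T)) ≫ τ.app _ := by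
    intro g hg
    have h5 := sh_τ_mapZeta P τ ζ ht (f ≫ U.cobar.q s (𝟙_ T))
    rw [← hg] at h5
    calc _ = sh t k t' ht g ≫ (F.commShiftIso k).inv.app B ≫
          F.map (ξ1 U k x s ≫ unitMap R _) := by
          rw [F.map_comp]
          simp only [Category.assoc]
      _ = sh t k t' ht (g ≫ F.map (unitMap R B)) ≫
          (F.commShiftIso k).inv.app (R ⊗ B) ≫ F.map ζ := by
          rw [← h2, F.map_comp, sh_comp, Category.assoc, reassoc_of% h3]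
      _ = _ := by
          refine h5.trans ?_
          rw [sh_comp, Category.assoc (sh t k t' ht f), ← h4]
          simp only [Category.assoc]
  exact key _ h1

end Cup1

section Cls

variable {T : Type u} [Category.{v} T] [Preadditive T] [HasZeroObject T]
    [HasShift T ℤ] [∀ n : ℤ, (shiftFunctor T n).Additive] [Pretriangulated T]
    [MonoidalCategory T] [SymmetricCategory T] [TensorTriangulated T] [HasCoproducts.{0} T]
    [MonoidalClosed T] [IsTriangulated T] [HasProducts.{0} T] [StableCat T]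
    {D : MUData T} (U : UnitCof D.R) {V : T} (i : 𝟙_ T ⟶ V)

/-- The class in `E₁` of the tower of `V` of a homogeneous cochain. -/
noncomputable def cls {s : ℕ} {w n t : ℤ} (α : (stdEven T).S w ≅ (𝟙_ T)⟦t⟧)
    (h : n + (s : ℤ) = t) (x : Cob.wt Laz s w) : (CV U V).E s n :=
  U.qE (𝟙_ T) (tensorRight V) (𝟙_ T) h (α.inv ≫ phiV D U i s w x)

lemma cls_eq_qE {s : ℕ} {w n t : ℤ} {α : (stdEven T).S w ≅ (𝟙_ T)⟦t⟧}
    (h : n + (s : ℤ) = t) (x : Cob.wt Laz s w) {f : (𝟙_ T)⟦t⟧ ⟶ U.cobar.Q (s + 1) (𝟙_ T)}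
    (hf : Realizes D U α x.1 f) : cls U i α h x = qE U (𝟙_ T) (redC i) h f := by
  rw [qE_eq, (realizes_iff α x f).1 hf, cls, phiV_apply, Category.assoc]

/-- Change of the identification of the spheres. -/
lemma exists_preE {w t : ℤ} (α β : (stdEven T).S w ≅ (𝟙_ T)⟦t⟧) :
    ∃ u : 𝟙_ T ≅ 𝟙_ T, ∀ {s : ℕ} {n : ℤ} (h : n + (s : ℤ) = t) (x : Cob.wt Laz s w),
      preE ((U.tow (𝟙_ T)).map (tensorRight V)) u.hom s n (cls U i α h x) = cls U i β h x := by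
  refine ⟨(shiftFunctor T t).preimageIso (β.symm ≪≫ α), fun {s n} h x => ?_⟩
  apply (((U.tow (𝟙_ T)).map (tensorRight V)).eE (𝟙_ T) h).injective
  have h0 : ((shiftFunctor T t).preimageIso (β.symm ≪≫ α)).hom⟦t⟧' = β.inv ≫ α.hom :=
    (shiftFunctor T t).map_preimage _
  rw [eE_preE, h0]
  have h1 := U.eT_qE (𝟙_ T) (tensorRight V) (𝟙_ T) h (α.inv ≫ phiV D U i s w x)
  have h2 := U.eT_qE (𝟙_ T) (tensorRight V) (𝟙_ T) h (β.inv ≫ phiV D U i s w x)
  refine (congrArg ((β.inv ≫ α.hom) ≫ ·) h1).trans (Eq.trans ?_ h2.symm)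
  simp only [Category.assoc, Iso.hom_inv_id_assoc]

lemma cls_cast {s : ℕ} {w n t t' : ℤ} (α : (stdEven T).S w ≅ (𝟙_ T)⟦t⟧)
    (h : n + (s : ℤ) = t) (h' : n + (s : ℤ) = t') (x : Cob.wt Laz s w) :
    ∃ β : (stdEven T).S w ≅ (𝟙_ T)⟦t'⟧, cls U i β h' x = cls U i α h x := by
  obtain rfl : t = t' := h.symm.trans h'
  exact ⟨α, rfl⟩

variable {U i}

/-- `Null` does not depend on the identification of the spheres. -/
theorem null_cls {r s : ℕ} {w n t t' : ℤ} {α : (stdEven T).S w ≅ (𝟙_ T)⟦t⟧}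
    (β : (stdEven T).S w ≅ (𝟙_ T)⟦t'⟧) {h : n + (s : ℤ) = t} (h' : n + (s : ℤ) = t')
    {x : Cob.wt Laz s w} (H : Null (CV U V) r (cls U i α h x)) :
    Null (CV U V) r (cls U i β h' x) := by
  obtain rfl : t = t' := h.symm.trans h'
  obtain ⟨u, hu⟩ := exists_preE U i α β
  rw [← hu h x]
  exact null_preE _ u.hom H

/-- Being a permanent cycle does not depend on the identification of the spheres. -/
theorem perm_cls {s : ℕ} {w n t t' : ℤ} {α : (stdEven T).S w ≅ (𝟙_ T)⟦t⟧}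
    (β : (stdEven T).S w ≅ (𝟙_ T)⟦t'⟧) {h : n + (s : ℤ) = t} (h' : n + (s : ℤ) = t')
    {x : Cob.wt Laz s w} (H : ∃ ξ, (CV U V).j s n ξ = cls U i α h x) :
    ∃ ξ, (CV U V).j s n ξ = cls U i β h' x := by
  obtain rfl : t = t' := h.symm.trans h'
  obtain ⟨u, hu⟩ := exists_preE U i α β
  obtain ⟨ξ, hξ⟩ := H
  refine ⟨preD _ u.hom s n ξ, ?_⟩
  rw [← hu h x, ← hξ]
  exact j_preD _ u.hom s n ξ

/-- The vanishing in filtration `r` of all elements with a given class does not depend on the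
identification of the spheres. -/
theorem allNull_cls {r s : ℕ} (hr : r ≤ s) {w n t t' : ℤ} {α : (stdEven T).S w ≅ (𝟙_ T)⟦t⟧}
    (β : (stdEven T).S w ≅ (𝟙_ T)⟦t'⟧) {h : n + (s : ℤ) = t} (h' : n + (s : ℤ) = t')
    {x : Cob.wt Laz s w}
    (H : ∀ ξ, (CV U V).j s n ξ = cls U i α h x → (CV U V).proj n hr ξ = 0)
    (ξ : (CV U V).D s n) (hξ : (CV U V).j s n ξ = cls U i β h' x) :
    (CV U V).proj n hr ξ = 0 := by
  obtain rfl : t = t' := h.symm.trans h'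
  obtain ⟨u, hu⟩ := exists_preE U i β α
  have h1 := H (preD _ u.hom s n ξ) (by
    rw [← hu h x, ← hξ]
    exact j_preD _ u.hom s n ξ)
  exact preD_eq_zero _ u.hom ((proj_preD _ u.hom n hr ξ).symm.trans h1)

end Cls

end Vale.Agent.P236S
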