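import Vale.Agent.P236S.Ex2
import Vale.Agent.P236L.Sp
import Vale.Agent.P236R.Van

/-!
# P236, block ORD: duality for Moore objects

* `Dual i π`: a natural surjection `Hom (S, B ⊗ V) → Hom (X, B)` which sends the reduction of `x`
  to `π ≫ x`; `dual_of_moo`: it exists for the boundary map `π` of a Moore object;
* `Dual.odd`, `Dual.lift`, `Dual.perm`, `Dual.proj_zero`: maps from `X` to the tower of the sphere.
-/

open CategoryTheory MonoidalCategory Limits Pretriangulated MonObj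

set_option linter.unusedSectionVars false

universe v u

namespace Vale.Agent.P236S

open Vale.Agent.P251 Vale.Agent.P251.T Vale.Agent.P251.F Vale.Agent.P251.I
  Vale.Agent.P251.M Vale.Agent.P257.H314 Vale.Agent.P257.H712 Vale.Agent.P257 Vale.Agent.P251.B
  Vale.Agent.P236K Vale.Agent.P236Z Vale.Agent.P251.H
open Vale.Agent.P251.S hiding IC
open Vale.Agent.P236L (Dif Bd Perm Gen sM cls coch ch)
open Vale.Agent.P236R (Moo Sph)

variable {T : Type u} [Category.{v} T] [Preadditive T] [HasZeroObject T]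
    [HasShift T ℤ] [∀ n : ℤ, (shiftFunctor T n).Additive] [Pretriangulated T]
    [MonoidalCategory T] [SymmetricCategory T] [TensorTriangulated T] [HasCoproducts.{0} T]
    {V : T} {i : 𝟙_ T ⟶ V} {δ : V ⟶ (𝟙_ T)⟦(1 : ℤ)⟧}

/-- The unital product of `V = S / q`. -/
theorem exists_mul₂ {q : ℤ} (hC : Dist (q • 𝟙 (𝟙_ T)) i δ) (hV : q • 𝟙 V = 0) :
    ∃ m : V ⊗ V ⟶ V, (i ▷ V) ≫ m = (λ_ V).hom ∧ (V ◁ i) ≫ m = (ρ_ V).hom := by
  obtain ⟨m, hm⟩ := P236L.exists_mul hC hV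
  have h1 : (V ◁ i) ≫ (β_ V V).hom ≫ m = (ρ_ V).hom := by
    rw [BraidedCategory.braiding_naturality_right_assoc, hm, braiding_leftUnitor]
  obtain ⟨w, hw⟩ := hC.desc₃ ((ρ_ V).inv ≫ (V ◁ i) ≫ m - 𝟙 V) (by
    rw [Preadditive.comp_sub, rightUnitor_inv_naturality_assoc, ← whisker_exchange_assoc, hm,
      leftUnitor_naturality, unitors_equal, Iso.inv_hom_id_assoc, Category.comp_id, sub_self])
  refine ⟨m - (δ ▷ V) ≫ (w ▷ V) ≫ (β_ V V).hom ≫ m, ?_, ?_⟩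
  · rw [Preadditive.comp_sub, hm, ← comp_whiskerRight_assoc, hC.zero₂₃,
      MonoidalPreadditive.zero_whiskerRight, zero_comp, sub_zero]
  · rw [Preadditive.comp_sub, ← comp_whiskerRight_assoc, whisker_exchange_assoc, h1,
      rightUnitor_naturality, hw, Preadditive.comp_sub, Iso.hom_inv_id_assoc, Category.comp_id,
      sub_sub_cancel]

variable (i) in
/-- Maps out of `X` in terms of maps into the tensor product with `V`. -/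
structure Dual {X S : T} (π : X ⟶ S) where
  /-- the duality map -/
  Φ : ∀ {B : T}, (S ⟶ B ⊗ V) → (X ⟶ B)
  nat : ∀ {B B' : T} (a : S ⟶ B ⊗ V) (g : B ⟶ B'), Φ (a ≫ g ▷ V) = Φ a ≫ g
  surj : ∀ {B : T} (f : X ⟶ B), ∃ a, Φ a = f
  red : ∀ {B : T} (x : S ⟶ B), Φ (x ≫ Dt.red i B) = π ≫ x

namespace Dual

variable {X S : T} {π : X ⟶ S} (Q : Dual i π)

lemma zero {B : T} : Q.Φ (0 : S ⟶ B ⊗ V) = 0 := by
  have h := Q.nat (0 : S ⟶ B ⊗ V) (0 : B ⟶ B)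
  rwa [zero_comp, comp_zero] at h

/-- Change of the objects. -/
def iso {X' S' : T} (a : X' ≅ X) (φ : S ≅ S') : Dual i (a.hom ≫ π ≫ φ.hom) where
  Φ b := a.hom ≫ Q.Φ (φ.hom ≫ b)
  nat b g := by rw [← Category.assoc φ.hom, Q.nat, Category.assoc]
  surj f := by
    obtain ⟨b, hb⟩ := Q.surj (a.inv ≫ f)
    exact ⟨φ.inv ≫ b, by rw [Iso.hom_inv_id_assoc, hb, Iso.hom_inv_id_assoc]⟩
  red x := by rw [← Category.assoc φ.hom, Q.red, Category.assoc, Category.assoc]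

end Dual

theorem dual_tens {q : ℤ} (hC : Dist (q • 𝟙 (𝟙_ T)) i δ) (hV : q • 𝟙 V = 0) (L : T) :
    Nonempty (Dual i (bdC δ L)) := by
  obtain ⟨m, h1, h2⟩ := exists_mul₂ hC hV
  let Ψ : ∀ {A B : T}, (A ⟶ B ⊗ V) → (A ⊗ V ⟶ B⟦(1 : ℤ)⟧) := fun {A B} a =>
    a ▷ V ≫ (α_ B V V).hom ≫ B ◁ m ≫ bdC δ B
  have e1 : ∀ {A B B' : T} (a : A ⟶ B ⊗ V) (g : B ⟶ B'), Ψ (a ≫ g ▷ V) = Ψ a ≫ g⟦(1 : ℤ)⟧' := by
    intro A B B' a g
    simp only [Ψ, comp_whiskerRight, Category.assoc]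
    rw [associator_naturality_left_assoc, ← whisker_exchange_assoc, bdC_naturality]
  have e2 : ∀ {A B : T} (x : A ⟶ B), Ψ (x ≫ Dt.red i B) = bdC δ A ≫ x⟦(1 : ℤ)⟧' := by
    intro A B x
    simp only [Ψ, Dt.red, comp_whiskerRight, Category.assoc]
    rw [associator_naturality_middle_assoc, ← MonoidalCategory.whiskerLeft_comp_assoc, h1,
      triangle_assoc, ← comp_whiskerRight_assoc (ρ_ B).inv, Iso.inv_hom_id, id_whiskerRight,
      Category.id_comp, bdC_naturality]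
  have e3 : ∀ {A B : T} (a : A ⟶ B ⊗ V), Dt.red i A ≫ Ψ a = a ≫ bdC δ B := by
    intro A B a
    simp only [Ψ]
    rw [← Dt.red_nat_assoc, Dt.red, Category.assoc, associator_naturality_right_assoc,
      ← MonoidalCategory.whiskerLeft_comp_assoc, h2, ← rightUnitor_tensor_hom_assoc,
      Iso.inv_hom_id_assoc]
  have e4 : ∀ {A B : T} (h : A ⊗ V ⟶ B⟦(1 : ℤ)⟧), ∃ a, Ψ a = h := by
    intro A B h
    obtain ⟨a, ha⟩ := (Dt.dist_red hC B).lift₁ (Dt.red i A ≫ h) (by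
      rw [Functor.map_zsmul, CategoryTheory.Functor.map_id, Preadditive.comp_zsmul,
        Category.comp_id, ← Preadditive.zsmul_comp, ← Category.id_comp (Dt.red i A),
        ← Preadditive.zsmul_comp, (Dt.dist_red hC A).zero₁₂, zero_comp])
    obtain ⟨z, hz⟩ := (Dt.dist_red hC A).desc₃ (h - Ψ a) (by
      rw [Preadditive.comp_sub, e3, ha, sub_self])
    obtain ⟨x, rfl⟩ := (shiftFunctor T (1 : ℤ)).map_surjective z
    refine ⟨a + x ≫ Dt.red i B, ?_⟩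
    rw [← e2, eq_sub_iff_add_eq, add_comm] at hz
    rw [← hz]
    simp only [Ψ, MonoidalPreadditive.add_whiskerRight, Preadditive.add_comp]
  let c : (L⟦(1 : ℤ)⟧) ⊗ V ≅ (L ⊗ V)⟦(1 : ℤ)⟧ := ((tensorRight V).commShiftIso (1 : ℤ)).app L
  have e5 : c.hom ≫ (bdC δ L)⟦(1 : ℤ)⟧' = -bdC δ (L⟦(1 : ℤ)⟧) := bdC_sign δ L
  refine ⟨⟨fun a => (shiftFunctor T (1 : ℤ)).preimage (-(c.inv ≫ Ψ a)), fun a g => ?_,
    fun f => ?_, fun x => ?_⟩⟩
  · apply (shiftFunctor T (1 : ℤ)).map_injective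
    rw [Functor.map_comp, Functor.map_preimage, Functor.map_preimage, e1, Preadditive.neg_comp,
      Category.assoc c.inv]
  · obtain ⟨a, ha⟩ := e4 (-(c.hom ≫ f⟦(1 : ℤ)⟧'))
    refine ⟨a, (shiftFunctor T (1 : ℤ)).map_injective ?_⟩
    rw [Functor.map_preimage, ha, Preadditive.comp_neg, neg_neg, Iso.inv_hom_id_assoc]
  · apply (shiftFunctor T (1 : ℤ)).map_injective
    rw [Functor.map_preimage, e2, ← neg_neg (bdC δ (L⟦(1 : ℤ)⟧)), ← e5, Preadditive.neg_comp,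
      Preadditive.comp_neg, neg_neg, Category.assoc, Iso.inv_hom_id_assoc, Functor.map_comp]

/-- Duality for a Moore object. -/
theorem dual_of_moo (hC : Dist ((3 : ℤ) • 𝟙 (𝟙_ T)) i δ) (hV : (3 : ℤ) • 𝟙 V = 0) {L X : T}
    {iX : L ⟶ X} {δX : X ⟶ L⟦(1 : ℤ)⟧} (hX : Moo iX δX) {S : T} (φ : L⟦(1 : ℤ)⟧ ≅ S) :
    Nonempty (Dual i (δX ≫ φ.hom)) := by
  obtain ⟨Q⟩ := dual_tens hC hV L
  have hX' : Dist ((3 : ℤ) • 𝟙 L) iX δX := hX
  obtain ⟨c, h1, h2⟩ := hX'.map₃ (Dt.dist_red hC L) (𝟙 _) (𝟙 _) (by simp)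
  rw [Category.id_comp] at h1
  rw [CategoryTheory.Functor.map_id, Category.comp_id] at h2
  have := hX'.iso₃ (Dt.dist_red hC L) c h1 h2
  have h := Q.iso (asIso c) φ
  rw [asIso_hom, ← Category.assoc, ← h2] at h
  exact ⟨h⟩

variable (D : MUData T) (U : UnitCof D.R)

/-- The class of a cochain in the `E₁`-term of the tower of the sphere. -/
noncomputable def xi {s : ℕ} {w : ℤ} (x : Cob.wt Laz s w) :
    (𝟙_ T)⟦2 * w⟧ ⟶ D.R ⊗ U.cobar.B s (𝟙_ T) := ch D U x ≫ U.cobar.q s (𝟙_ T)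

lemma xi_eq {s : ℕ} {w : ℤ} (x : Cob.wt Laz s w) :
    xi D U x = (sM T w).inv ≫ D.evw s w x ≫ Dt.qq D U s := by
  rw [xi, ch, D.phi_apply, Dt.qq]
  simp only [Category.assoc]

lemma xi_Xi {s : ℕ} {w : ℤ} (x : Cob.wt Laz s w) : P236L.Xi D U (𝟙 (𝟙_ T)) x = xi D U x := by
  rw [P236L.Xi, CobarData.Qm_id, Category.id_comp, xi]

lemma xi_add {s : ℕ} {w : ℤ} (x y : Cob.wt Laz s w) : xi D U (x + y) = xi D U x + xi D U y := by
  rw [← xi_Xi, ← xi_Xi, ← xi_Xi, P236L.Xi_add]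

lemma xi_zsmul {s : ℕ} {w : ℤ} (n : ℤ) (x : Cob.wt Laz s w) :
    xi D U (n • x) = n • xi D U x := by
  rw [← xi_Xi, ← xi_Xi, P236L.Xi_zsmul]

lemma xi_d {s : ℕ} {w : ℤ} (x : Cob.wt Laz s w) : xi D U (Cob.dwt Laz s w x) =
    xi D U x ≫ U.cobar.k s (𝟙_ T) ≫ unitMap D.R (U.cobar.B (s + 1) (𝟙_ T)) := by
  rw [xi_eq, xi_eq, D.evw_dwt, ← Dt.dd]
  simp only [Category.assoc]
  rw [Dt.dd_qq]

/-- The tower of `V`. -/
noncomputable abbrev TW (V : T) : Tow T := (U.tow (𝟙_ T)).map (tensorRight V)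

lemma eE_cls {s : ℕ} {w n : ℤ} (h : n + (s : ℤ) = 2 * w) (x : Cob.wt Laz s w) :
    (TW D U V).eE (𝟙_ T) h (cls D U i s w n h x) = xi D U x ≫ Dt.red i _ := by
  refine (U.eT_qE (𝟙_ T) (tensorRight V) (𝟙_ T) h (coch D U i s w x)).trans ?_
  change ((sM T w).inv ≫ D.phi U s w x ≫ Dt.red i _) ≫ (U.cobar.q s (𝟙_ T) ▷ V) = _
  rw [xi, ch]
  simp only [Category.assoc]
  rw [Dt.red_nat]

variable {D U} {𝔞 : ∀ s : ℕ, Ideal (Cob Laz s)} (G : Gen D U i 𝔞)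

namespace Dual

include G in
lemma odd {X : T} {k : ℤ} {π : X ⟶ (𝟙_ T)⟦2 * k + 1⟧} (Q : Dual i π) (s : ℕ)
    (f : X ⟶ D.R ⊗ U.cobar.B s (𝟙_ T)) : f = 0 := by
  obtain ⟨a, rfl⟩ := Q.surj f
  have h : 2 * k + 1 - s + (s : ℤ) = 2 * k + 1 := by ring
  obtain ⟨e, rfl⟩ := ((TW D U V).eE (𝟙_ T) h).surjective a
  rw [G.E_odd h e, map_zero]
  exact Q.zero

variable {X : T} {w : ℤ} {π : X ⟶ (𝟙_ T)⟦2 * w⟧} (Q : Dual i π) {s : ℕ}

lemma unit {n : ℤ} (h : n + (s : ℤ) = 2 * w) (c : (CV U V).D s n) {x : Cob.wt Laz s w}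
    (hc : (CV U V).j s n c = cls D U i s w n h x) :
    Q.Φ (B := U.cobar.B s (𝟙_ T)) ((TW D U V).eD (𝟙_ T) h c) ≫ unitMap D.R _ = π ≫ xi D U x := by
  refine (Q.nat _ _).symm.trans (Eq.trans (congrArg Q.Φ ?_) (Q.red _))
  rw [← eE_cls D U h, ← hc]
  exact ((TW D U V).eE_j (𝟙_ T) h c).symm

include Q in
lemma lift {x : Cob.wt Laz s w} (H : Perm D U i x) :
    ∃ c : X ⟶ U.cobar.B s (𝟙_ T), c ≫ unitMap D.R _ = π ≫ xi D U x := by
  obtain ⟨n, h, c, hc⟩ := H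
  exact ⟨_, Q.unit h c hc⟩

include G Q in
lemma perm (c : X ⟶ U.cobar.B s (𝟙_ T)) : ∃ x : Cob.wt Laz s w, Cob.d s x.1 ∈ 𝔞 (s + 1) ∧
    Perm D U i x ∧ c ≫ unitMap D.R _ = π ≫ xi D U x := by
  obtain ⟨a, rfl⟩ := Q.surj c
  have h : 2 * w - s + (s : ℤ) = 2 * w := by ring
  obtain ⟨e, rfl⟩ := ((TW D U V).eD (𝟙_ T) h).surjective a
  obtain ⟨x, h1, h2⟩ := G.exists_cocycle h _ ((CV U V).isCocycle_j e)
  exact ⟨x, h1, ⟨_, h, e, h2.symm⟩, Q.unit h e h2.symm⟩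

end Dual

lemma ii_eq_zero_iff (Y : Tow T) (P : T) {s : ℕ} {n t : ℤ} (h : n + ((s + 1 + 1 : ℕ) : ℤ) = t)
    (y : (Y.couple P).D (s + 1 + 1) n) :
    (Y.couple P).i s n ((Y.couple P).i (s + 1) n y) = 0 ↔
      Y.eD P h y ≫ Y.c (s + 1) ≫ (Y.c s)⟦(1 : ℤ)⟧' = 0 := by
  have h1 : n + ((s + 1 : ℕ) : ℤ) = n + (s : ℤ) + 1 := by push_cast; ring
  have h2 : n + (s : ℤ) + 1 + 1 = t := by rw [← h]; push_cast; ring
  rw [← Category.assoc, ← Y.eD_i P h1 h h2, ← sh_comp, ← Y.eD_i P rfl h1 rfl,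
    AddEquiv.map_eq_zero_iff, AddEquiv.map_eq_zero_iff, AddEquiv.map_eq_zero_iff]

/-- Two steps of the tower vanish on `P` if they vanish on the homotopy groups of `V`. -/
lemma Dual.ii_zero {P : T} {s : ℕ} {n m : ℤ}
    {π : P⟦n + ((s + 1 + 1 : ℕ) : ℤ)⟧ ⟶ (𝟙_ T)⟦m + ((s + 1 + 1 : ℕ) : ℤ)⟧} (Q : Dual i π)
    (H : ∀ e : (CV U V).D (s + 1 + 1) m, (CV U V).i s m ((CV U V).i (s + 1) m e) = 0)
    (y : ((U.tow (𝟙_ T)).couple P).D (s + 1 + 1) n) :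
    ((U.tow (𝟙_ T)).couple P).i s n (((U.tow (𝟙_ T)).couple P).i (s + 1) n y) = 0 := by
  obtain ⟨a, ha⟩ := Q.surj (B := U.cobar.B (s + 1 + 1) (𝟙_ T)) y
  have h1 := (ii_eq_zero_iff (TW D U V) (𝟙_ T) rfl a).1 (H a)
  have h2 : a ≫ (U.bd (s + 1) (𝟙_ T) ≫ (U.bd s (𝟙_ T))⟦(1 : ℤ)⟧') ▷ V = 0 := by
    have h3 : a ≫ ((tensorRight V).map (U.bd (s + 1) (𝟙_ T)) ≫ cm (tensorRight V) _) ≫
        ((tensorRight V).map (U.bd s (𝟙_ T)) ≫ cm (tensorRight V) _)⟦(1 : ℤ)⟧' = 0 := h1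
    rw [Functor.map_comp, Category.assoc, ← cm_nat_assoc, ← Functor.map_comp_assoc,
      ← Category.assoc] at h3
    have : IsIso (cm (tensorRight V) ((U.cobar.B s (𝟙_ T))⟦(1 : ℤ)⟧) ≫
      (cm (tensorRight V) (U.cobar.B s (𝟙_ T)))⟦(1 : ℤ)⟧') := by
      unfold cm
      infer_instance
    exact (Preadditive.IsIso.comp_right_eq_zero _ _).1 h3
  refine (ii_eq_zero_iff _ P rfl y).2 ?_
  have h4 := Q.nat a (U.bd (s + 1) (𝟙_ T) ≫ (U.bd s (𝟙_ T))⟦(1 : ℤ)⟧')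
  rw [h2, Q.zero, ha] at h4
  exact h4.symm

end Vale.Agent.P236S
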