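import Vale.Agent.P236S.OrdA
import Vale.Agent.P236R.OutO

/-!
# P236: the final statement with order three from the tables and a certificate
-/

namespace Vale.Agent.P236E

open Vale.Agent.P236K Vale.Agent.P236H Vale.Agent.P236R Vale.Agent.P236S

/-- `fin_three_of_imp` without the topological hypotheses. -/
theorem fin3_of_imp {τ₀ : Tab} (R : Real τ₀) {O : Orc}
    (hO : ∀ S : SS, Crd τ₀ S → Nonempty (CrdO O S)) {s T x l s' T' x' l' : ℕ} {outs : List Fact}
    (h : O.Imp [.ne false s T x l, .ne true s' T' x' l'] outs) (h8 : .goal 8 ∈ outs)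
    (h7 : .goal 7 ∈ outs) {y k m : ℕ} {b : Bool}
    {cs : List (Mx × ℕ)} (hc : O.chkO y k cs = true) (hp : .perm 1 27 y ∈ outs)
    (hk : .eqf (fadd (LE false 5 81 (O.ux 5 81 k) (ul m)) (.cons 0 b .nil)) ∈ outs) : FIN 3 :=
  fin_three_of
    (always_out1 R fun S C hH => (hO S C).elim fun C' => goals_of h C' hH h8)
    (always_outO R fun S C hH => (hO S C).elim fun C' => outO_of h hc hp hk C' hH)
    (always_out R fun S C hH => (hO S C).elim fun C' => goals_of h C' hH h7)

end Vale.Agent.P236E
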