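import Vale.Agent.P257.H712.Survive

/-!
# P236, block SEEDS: from a vanishing product to a differential (exact couples)

`Null C b y` says that `y : E t m` is the class of an element of `D t m` which dies in `D b m`.

* `Null.succ`: if every class of `E b (m+1)` which survives to `E_{t-b}` survives to `E_{t-b+1}`,
  then `Null C b y → Null C (b+1) y`;
* `Null.up`: the iteration;
* `Null.hit`: `Null C s y` gives a class `e : E s (m+1)` with `d_{t-s} e = y`.
-/

universe u v

namespace Vale.Agent.P236S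

open Vale.Agent.P251.S Vale.Agent.P257.H712

variable {C : Couple.{u, v}}

/-- `e : E s (m+1)` supports a differential with target `y : E t m`. -/
def Hits {s t : ℕ} {m : ℤ} (e : C.E s (m + 1)) (y : C.E t m) : Prop :=
  ∃ h : s + 1 ≤ t, ∃ c : C.D t m, C.proj m h c = C.k s (m + 1) m rfl e ∧ C.j t m c = y

/-- An element which dies in filtration `s` is the target of a differential from filtration `s`. -/
theorem hit {s t : ℕ} {m : ℤ} {y : C.E t m} (hst : s + 1 ≤ t) (hy : Null C s y) :
    ∃ e : C.E s (m + 1), Hits e y := by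
  obtain ⟨h, c, hc, hj⟩ := hy
  have h1 : C.i s m (C.proj m hst c) = 0 := by
    rw [C.i_proj m hst c]
    exact hc
  obtain ⟨e, he⟩ := C.exact_i s (m + 1) m rfl _ h1
  exact ⟨e, hst, c, he.symm, hj⟩

/-- The target of a differential from filtration `s` dies in filtration `s`. -/
theorem Hits.null {s t : ℕ} {m : ℤ} {e : C.E s (m + 1)} {y : C.E t m} (h : Hits e y) :
    Null C s y := by
  obtain ⟨h, c, hc, hj⟩ := h
  refine ⟨by omega, c, ?_, hj⟩
  rw [← C.i_proj m h c, hc, C.i_k]

/-- The source of a differential of length at least two is a cocycle. -/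
theorem Hits.isCocycle {s t : ℕ} {m : ℤ} {e : C.E s (m + 1)} {y : C.E t m} (h : Hits e y)
    (hst : s + 2 ≤ t) : C.IsCocycle e := by
  obtain ⟨h, c, hc, -⟩ := h
  intro l hl
  obtain rfl : l = m := by linarith
  rw [C.d_apply, ← hc, ← C.i_proj _ hst c, C.j_i]

theorem Hits.lifts {s t : ℕ} {m : ℤ} {e : C.E s (m + 1)} {y : C.E t m} (h : Hits e y) :
    Lifts (C.k s (m + 1) m rfl e) t := by
  obtain ⟨h, c, hc, -⟩ := h
  exact ⟨h, c, hc⟩

/-- If the source of a differential survives one more step, the target dies one step higher. -/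
theorem Hits.null_succ {s t : ℕ} {m : ℤ} {e : C.E s (m + 1)} {y : C.E t m} (h : Hits e y)
    (hl : Lifts (C.k s (m + 1) m rfl e) (t + 1)) : Null C (s + 1) y := by
  obtain ⟨h, c, hc, hj⟩ := h
  obtain ⟨h', c', hc'⟩ := hl
  refine ⟨h, c - C.i t m c', ?_, ?_⟩
  · rw [proj_sub, hc, ← C.proj_succ m h, hc', sub_self]
  · rw [map_sub, hj, C.j_i, sub_zero]

/-- One step up. -/
theorem null_succ {s t : ℕ} {m : ℤ} {y : C.E t m} (hst : s + 1 ≤ t) (hy : Null C s y)
    (hl : ∀ e : C.E s (m + 1), Hits e y → Lifts (C.k s (m + 1) m rfl e) (t + 1)) :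
    Null C (s + 1) y := by
  obtain ⟨e, he⟩ := hit hst hy
  exact he.null_succ (hl e he)

/-- Several steps up. -/
theorem null_up {b s t : ℕ} {m : ℤ} {y : C.E t m} (hbs : b ≤ s) (hst : s ≤ t) (hy : Null C b y)
    (hl : ∀ a, b ≤ a → a < s → ∀ e : C.E a (m + 1), Hits e y →
      Lifts (C.k a (m + 1) m rfl e) (t + 1)) : Null C s y := by
  induction s, hbs using Nat.le_induction with
  | base => exact hy
  | succ s hbs ih =>
    exact null_succ hst (ih (by omega) fun a ha ha' => hl a ha (by omega))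
      (hl s hbs (by omega))

lemma lifts_zero {r t : ℕ} {m : ℤ} (h : r ≤ t) : Lifts (0 : C.D r m) t :=
  ⟨h, 0, C.proj_zero' _ _⟩

/-- A class which is a permanent cycle up to a coboundary has trivial `k`. -/
lemma k_eq_zero_of_perm {s : ℕ} {m : ℤ} {e : C.E (s + 1) (m + 1)} (ξ : C.D (s + 1) (m + 1))
    (h : C.IsCobdy (e - C.j _ _ ξ)) : C.k (s + 1) (m + 1) m rfl e = 0 := by
  have h1 := h.k_eq_zero m rfl
  rwa [map_sub, C.k_j, sub_zero] at h1

/-- Several steps up through vanishing `E₂`-terms. -/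
theorem null_up_of_van {b s t : ℕ} {m : ℤ} {y : C.E t m} (hb : 1 ≤ b) (hbs : b ≤ s)
    (hst : s + 1 ≤ t) (hy : Null C b y) (hv : ∀ a, b ≤ a + 1 → a + 1 < s → C.Van a (m + 1)) :
    Null C s y := by
  refine null_up hbs (by omega) hy fun a ha ha' e he => ?_
  obtain ⟨a, rfl⟩ : ∃ a', a = a' + 1 := ⟨a - 1, by omega⟩
  rw [(hv a ha ha' e (he.isCocycle (by omega))).k_eq_zero m rfl]
  exact lifts_zero (by omega)

/-- The first step, if there are no cocycles in filtration zero. -/
theorem null_one {t : ℕ} {m : ℤ} {y : C.E t m} (ht : 2 ≤ t) (hy : Null C 0 y)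
    (hv : ∀ e : C.E 0 (m + 1), C.IsCocycle e → e = 0) : Null C 1 y := by
  refine null_succ (by omega) hy fun e he => ?_
  rw [hv e (he.isCocycle (by omega)), map_zero]
  exact lifts_zero (by omega)

end Vale.Agent.P236S
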