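import Vale.Agent.P236S.Ord5
import Vale.Agent.P236R.Asm
import Vale.Agent.P236H.OrdE
import Vale.Agent.P236G.Asm

/-!
# P236, block ORD: the statement `OrdA`, and the final statement from the output of the engine
-/

open CategoryTheory MonoidalCategory Limits Pretriangulated MonObj

namespace Vale.Agent.P236S

open Vale.Agent.P236R Vale.Agent.P236H Vale.Agent.P236K

theorem always_ordA : Always fun _ D U _ i => OrdA D U i := by
  intro T F e D hU U V i δ hV hE x x₂ hx hp hB L X iX dX hX hL
  have hLow : Low T.C := low_of hV fun j h1 h2 f =>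
    P257.H709.pi_low D U (p := 3) (by norm_num) hV h1 (by push_cast; omega) f
  obtain ⟨f, φ, c, h1, h2, h3⟩ := ordA hV (hLow.smul_id hV sph_unit) (N := 3 ^ (2 + 1)) (N₂ := 54)
    (M := 81) rfl rfl (fun s W y a b _ c => hE s W y a b c) hx hp hB hX hL
  refine ⟨f, φ, ⟨c, h1, h2⟩, fun L' P i' d' hP hL' ψ Z e q hZ => h3 (mooN_of hP hL') hZ⟩

/-- The final statement with order three, from the output of the engine. -/
theorem fin_three_of (h1 : Always fun _ D U _ i => EngOut1 D U i)
    (hO : Always fun _ D U _ i => EngOutO D U i) (h3 : Always fun _ D U _ i => EngOut D U i 3) :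
    FIN 3 :=
  fin_three (fun _ => P236G.geoStmt) always_ordA ordC h1 hO h3

end Vale.Agent.P236S
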