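import Vale.Agent.P236S.Cls
import Vale.Agent.P257.H712.Toda
import Vale.Agent.P257.H545.Final

/-!
# P236, block SEEDS: the relations `α₁ β₁^p = 0` and `β₁^{(p-1)²+p} = 0` in the tower of `V`

`V` is an object killed by `p`, `z` is a permanent cycle of the tower of `V`.

* `perm_cup_t`, `perm_cupN`: the products of `z` with `t` and `b` are permanent cycles;
* `null_toda`: `z ∪ b^p ∪ t` is the class of an element which dies in filtration `0`;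
* `null_pow`: the same for `z ∪ b^K`, `K ≥ (p-1)² + p`.
-/

open CategoryTheory MonoidalCategory Limits Pretriangulated MonObj

set_option linter.unusedSectionVars false

universe v u

namespace Vale.Agent.P236S

open Vale.Agent.P251 Vale.Agent.P251.T Vale.Agent.P251.F Vale.Agent.P251.I
  Vale.Agent.P251.M Vale.Agent.P257.H314 Vale.Agent.P257.H712 Vale.Agent.P257
open Vale.Agent.P251.S hiding IC
open Vale.Agent.P251.B (sphE)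
open Vale.Agent.P257.H762 (AI tSm)

section Tensor

variable {T : Type u} [Category.{v} T] [Preadditive T] [HasZeroObject T] [HasShift T ℤ]
  [∀ n : ℤ, (shiftFunctor T n).Additive] [Pretriangulated T] [MonoidalCategory T]
  [SymmetricCategory T] [TensorTriangulated T] {R : T} [MonObj R] (U : UnitCof R) {V : T}
  {k a : ℤ} (hk : k = a + 2) (x : (𝟙_ T)⟦k⟧ ⟶ U.cobar.B 2 (𝟙_ T))
  (hξ : ∀ s, U.ξ k x (s + 1) ≫ (U.tow (𝟙_ T)).c (s + 2) =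
      ((U.tow (𝟙_ T)).c s)⟦k⟧' ≫ (shiftFunctorComm T (1 : ℤ) k).hom.app ((U.tow (𝟙_ T)).J s) ≫
        (U.ξ k x s)⟦(1 : ℤ)⟧')

lemma AI_zero_iff {A B A' B' : T} {f : A ⟶ B} {g : A' ⟶ B'} (H : AI f g) : f = 0 ↔ g = 0 :=
  ⟨H.eq_zero', H.eq_zero⟩

lemma zsmul_tensor_kil {q : ℤ} (hV : q • 𝟙 V = 0) {A B A' : T} (g : A ⟶ B) (ζ : A' ⟶ V) :
    ((q • g) ⊗ₘ ζ) = 0 := by
  rw [tensorHom_def, H762.whiskerRight_zsmul', Preadditive.zsmul_comp, ← Preadditive.comp_zsmul,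
    ← H762.whiskerLeft_zsmul', H762.Kil.comp hV ζ, MonoidalPreadditive.whiskerLeft_zero,
    comp_zero]

lemma kil_left {q : ℤ} (hV : q • 𝟙 V = 0) (X : T) : H762.Kil q (X ⊗ V) := by
  rw [H762.Kil, ← MonoidalCategory.whiskerLeft_id, ← H762.whiskerLeft_zsmul', hV,
    MonoidalPreadditive.whiskerLeft_zero]

/-- The powers of `β` in filtration `0`, with a further factor. -/
theorem tensor_powB_iff {n t t' : ℤ} (h : n + ((0 : ℕ) : ℤ) = t) (K : ℕ)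
    (h' : Couple.Mul2.deg a n K + ((0 : ℕ) : ℤ) = t')
    (y : (((U.tow (𝟙_ T)).map (tensorRight V)).couple (𝟙_ T)).D 0 n) {A B : T} (g : A ⟶ B) :
    (g ⊗ₘ zet U h' (powB (M₂ U (𝟙_ T) (tensorRight V) hk x hξ) K y)) = 0 ↔
      (g ⊗ₘ (tpow (bet U x) K ⊗ₘ zet U h y)) = 0 := by
  induction K generalizing t' A B with
  | zero =>
    obtain rfl : t = t' := h.symm.trans h'
    exact AI_zero_iff ((AI.refl g).tensor (AI.unit_left (zet U h y)).symm)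
  | succ K ih =>
    obtain ⟨e, he⟩ := exists_bet_tensor U (V := V) hk x hξ
      (n := Couple.Mul2.deg a n K) rfl h'
    have h1 := he (powB (M₂ U (𝟙_ T) (tensorRight V) hk x hξ) K y)
    refine (tensor_whiskerLeft_eq_zero_iff g _).symm.trans ?_
    refine (AI_zero_iff ((AI.refl g).tensor (AI.of_iso_comp e _).symm)).trans ?_
    refine (iff_of_eq (congrArg (fun f => (g ⊗ₘ f) = 0) h1.symm)).trans ?_
    refine (AI_zero_iff (AI.assoc _ _ _).symm).trans ((ih rfl _).trans (AI_zero_iff ?_))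
    refine (AI.assoc _ _ _).trans ((AI.refl g).tensor ?_)
    exact (AI.assoc _ _ _).symm.trans ((AI.braid _ _).tensor (AI.refl _))

omit hk hξ in
lemma tensor_sph1_iff {A B X Y : T} (g : A ⟶ B) (f : X ⟶ Y) :
    (g ⊗ₘ (((𝟙_ T)⟦(1 : ℤ)⟧ : T) ◁ f)) = 0 ↔ (g ⊗ₘ f) = 0 := by
  let ε : ((𝟙_ T)⟦(-1 : ℤ)⟧) ⊗ ((𝟙_ T)⟦(1 : ℤ)⟧) ≅ 𝟙_ T :=
    sphTensor (-1 : ℤ) ((𝟙_ T)⟦(1 : ℤ)⟧) ≪≫ shiftShiftNeg (𝟙_ T) (1 : ℤ)
  rw [← whiskerLeft_eq_zero_iff_of_inv ε (g ⊗ₘ f), ← id_tensorHom, ← id_tensorHom]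
  exact AI_zero_iff ((AI.assoc _ _ _).symm.trans
    (((AI.braid _ _).tensor (AI.refl _)).trans (AI.assoc _ _ _)))

omit hk hξ in
/-- The multiplication by `α` in filtration `0`, with a further factor. -/
theorem tensor_mul1_iff {k a : ℤ} (hk : k = a + 1) (m : ℕ) (hm : k = 2 * (m : ℤ))
    (x : (𝟙_ T)⟦k⟧ ⟶ U.cobar.B 1 (𝟙_ T)) {n t t'' : ℤ} (h : n + ((0 : ℕ) : ℤ) = t)
    (h'' : n + a + ((0 : ℕ) : ℤ) = t'')
    (y : (((U.tow (𝟙_ T)).map (tensorRight V)).couple (𝟙_ T)).D 0 n) {A B : T} (g : A ⟶ B) :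
    (g ⊗ₘ zet U h'' ((((U.tow (𝟙_ T)).map (tensorRight V)).couple (𝟙_ T)).i 0 (n + a)
      ((M₁ U (𝟙_ T) (tensorRight V) hk m hm x).μ 0 n y))) = 0 ↔
      (g ⊗ₘ ((x ≫ U.bd 0 (𝟙_ T)) ⊗ₘ zet U h y)) = 0 := by
  let X := (U.tow (𝟙_ T)).map (tensorRight V)
  let y' := (X.couple (𝟙_ T)).i 0 (n + a) ((M₁ U (𝟙_ T) (tensorRight V) hk m hm x).μ 0 n y)
  have h1 : n + a + ((0 + 1 : ℕ) : ℤ) = t + k := by rw [hk, ← h]; push_cast; ring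
  have h2 : t'' + 1 = t + k := by rw [hk, ← h, ← h'']; push_cast; ring
  have h3 : sh t'' 1 (t + k) h2 (e0 U h'' y') = _ :=
    X.eD_i (𝟙_ T) h'' h1 h2 ((M₁ U (𝟙_ T) (tensorRight V) hk m hm x).μ 0 n y)
  have h4 := eD_M₁ U (𝟙_ T) (F := tensorRight V) hk m hm x h h1 rfl y
  have h5 : ξ1 U k x 0 = x := Category.id_comp _
  rw [h5] at h4
  have h6 : sh t'' 1 (t + k) h2 (e0 U h'' y') =
      act (tensorRight V) (x ≫ U.bd 0 (𝟙_ T)) rfl (e0 U h y) ≫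
        ((tensorRight V).commShiftIso (1 : ℤ)).hom.app (𝟙_ T) := by
    rw [act_comp, Category.assoc]
    exact h3.trans (congrArg (· ≫ X.c 0) h4)
  rw [act_eq] at h6
  have h7 : (shiftFunctorAdd' T t'' 1 (t + k) h2).hom.app (𝟙_ T) ≫ (zet U h'' y')⟦(1 : ℤ)⟧' =
      (actIso k t (t + k) rfl).hom ≫ ((x ≫ U.bd 0 (𝟙_ T)) ⊗ₘ zet U h y) ≫
        (sphTensor (1 : ℤ) V).hom := by
    have h8 := congrArg (· ≫ (λ_ V).hom⟦(1 : ℤ)⟧') h6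
    refine Eq.trans ?_ (h8.trans ?_)
    · exact (sh_comp t'' 1 (t + k) h2 (e0 U h'' y') (λ_ V).hom)
    · simp only [Category.assoc]
      rfl
  have h9 : AI ((x ≫ U.bd 0 (𝟙_ T)) ⊗ₘ zet U h y) ((zet U h'' y')⟦(1 : ℤ)⟧') :=
    ⟨(actIso k t (t + k) rfl).symm ≪≫ (shiftFunctorAdd' T t'' 1 (t + k) h2).app (𝟙_ T),
      sphTensor (1 : ℤ) V, by
        rw [Iso.trans_hom, Iso.symm_hom, Category.assoc, Iso.eq_inv_comp]
        exact h7.symm⟩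
  have h10 : AI (((𝟙_ T)⟦(1 : ℤ)⟧ : T) ◁ zet U h'' y') ((zet U h'' y')⟦(1 : ℤ)⟧') :=
    ⟨sphTensor (1 : ℤ) _, sphTensor (1 : ℤ) V, sphTensor_naturality _ _⟩
  exact (tensor_sph1_iff g _).symm.trans (AI_zero_iff ((AI.refl g).tensor (h10.trans h9.symm)))

end Tensor

variable {T : Type u} [Category.{v} T] [Preadditive T] [HasZeroObject T]
    [HasShift T ℤ] [∀ n : ℤ, (shiftFunctor T n).Additive] [Pretriangulated T]
    [MonoidalCategory T] [SymmetricCategory T] [TensorTriangulated T] [HasCoproducts.{0} T]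
    [MonoidalClosed T] [IsTriangulated T] [HasProducts.{0} T] [StableCat T]
    {D : MUData T} {U : UnitCof D.R} {V : T} {i : 𝟙_ T ⟶ V}

section Prod

variable {k a v : ℤ} (hk : k = a + 2) (x : (𝟙_ T)⟦k⟧ ⟶ U.cobar.B 2 (𝟙_ T))
  (hξ : ∀ s, U.ξ k x (s + 1) ≫ (U.tow (𝟙_ T)).c (s + 2) =
      ((U.tow (𝟙_ T)).c s)⟦k⟧' ≫ (shiftFunctorComm T (1 : ℤ) k).hom.app ((U.tow (𝟙_ T)).J s) ≫
        (U.ξ k x s)⟦(1 : ℤ)⟧')
  (β : (stdEven T).S v ≅ (𝟙_ T)⟦k⟧) (b : Cob.wt Laz 2 v)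
  (hx : (β.inv ≫ D.phi U 2 v b) ≫ U.cobar.q 2 (𝟙_ T) = x ≫ unitMap D.R _)

include hx in
/-- The class of `x^K ξ`. -/
lemma j_powD {s : ℕ} {w n t : ℤ} {α : (stdEven T).S w ≅ (𝟙_ T)⟦t⟧} {h : n + (s : ℤ) = t}
    {z : Cob.wt Laz s w} {ξ : (CV U V).D s n} (hz : (CV U V).j s n ξ = cls U i α h z) (K : ℕ) :
    (CV U V).j _ _ (powD (M₂ U (𝟙_ T) (tensorRight V) hk x hξ) K ξ) =
      cls U i (αK α β K) (deg_add' hk h K) ⟨cupN z.1 b.1 K, cupN_isWt z.2 b.2 K⟩ := by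
  have hf : Realizes D U α z.1 (α.inv ≫ D.phi U s w z) := (realizes_iff α z _).2 rfl
  have hb : Realizes D U β b.1 (β.inv ≫ D.phi U 2 v b) := (realizes_iff β b _).2 rfl
  rw [cls_eq_qE U i h z hf] at hz
  rw [cls_eq_qE U i (deg_add' hk h K) ⟨cupN z.1 b.1 K, cupN_isWt z.2 b.2 K⟩
    (cupK_realizes hf hb K)]
  refine ((ME₂ U (𝟙_ T) (tensorRight V) hk x hξ).j_powD K ξ).trans ?_
  rw [hz]
  exact powE_qE U (𝟙_ T) (redC i) hk x hξ _ hx h _ K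

end Prod

section Prod1

variable {k a v : ℤ} (hk : k = a + 1) (m : ℕ) (hm : k = 2 * (m : ℤ))
  (x : (𝟙_ T)⟦k⟧ ⟶ U.cobar.B 1 (𝟙_ T))
  (β : (stdEven T).S v ≅ (𝟙_ T)⟦k⟧) (b : Cob.wt Laz 1 v)
  (hx : (β.inv ≫ D.phi U 1 v b) ≫ U.cobar.q 1 (𝟙_ T) = x ≫ unitMap D.R _)

include hx in
/-- The class of `x ξ`. -/
lemma j_mul1 {s : ℕ} {w n t : ℤ} {α : (stdEven T).S w ≅ (𝟙_ T)⟦t⟧} {h : n + (s : ℤ) = t}
    {z : Cob.wt Laz s w} {ξ : (CV U V).D s n} (hz : (CV U V).j s n ξ = cls U i α h z)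
    (h' : n + a + ((s + 1 : ℕ) : ℤ) = t + k) :
    (CV U V).j _ _ ((M₁ U (𝟙_ T) (tensorRight V) hk m hm x).μ s n ξ) =
      cls U i (prodSph α β rfl rfl) h'
        ⟨Cob.cup (a := s) (b := 1) z.1 b.1, Cob.IsWt.cup z.2 b.2⟩ := by
  have hf : Realizes D U α z.1 (α.inv ≫ D.phi U s w z) := (realizes_iff α z _).2 rfl
  have hb : Realizes D U β b.1 (β.inv ≫ D.phi U 1 v b) := (realizes_iff β b _).2 rfl
  rw [cls_eq_qE U i h z hf] at hz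
  rw [cls_eq_qE U i h' ⟨Cob.cup (a := s) (b := 1) z.1 b.1, Cob.IsWt.cup z.2 b.2⟩
    (H820.Realizes.cup1 hf hb rfl rfl)]
  exact j_M₁ U (𝟙_ T) (redC i) hk m hm x _ hx h h' rfl ξ _ hz

end Prod1

/-- A statement about the class of a cochain in a stem and a weight given up to equality. -/
lemma null_cls' {r s : ℕ} {w w' n n' t t' : ℤ} (hw : w = w') (hn : n = n')
    {α : (stdEven T).S w ≅ (𝟙_ T)⟦t⟧} (β : (stdEven T).S w' ≅ (𝟙_ T)⟦t'⟧)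
    {h : n + (s : ℤ) = t} (h' : n' + (s : ℤ) = t') {x : Cob Laz s} {hx : Cob.IsWt w x}
    (hx' : Cob.IsWt w' x) (H : Null (CV U V) r (cls U i α h ⟨x, hx⟩)) :
    Null (CV U V) r (cls U i β h' ⟨x, hx'⟩) := by
  subst hw; subst hn
  exact null_cls β h' H

lemma perm_cls' {s : ℕ} {w w' n n' t t' : ℤ} (hw : w = w') (hn : n = n')
    {α : (stdEven T).S w ≅ (𝟙_ T)⟦t⟧} (β : (stdEven T).S w' ≅ (𝟙_ T)⟦t'⟧)
    {h : n + (s : ℤ) = t} (h' : n' + (s : ℤ) = t') {x : Cob Laz s} {hx : Cob.IsWt w x}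
    (hx' : Cob.IsWt w' x) (H : ∃ ξ, (CV U V).j s n ξ = cls U i α h ⟨x, hx⟩) :
    ∃ ξ, (CV U V).j s n' ξ = cls U i β h' ⟨x, hx'⟩ := by
  subst hw; subst hn
  exact perm_cls β h' H

/-- The unit is a permanent cycle. -/
theorem perm_one {n t : ℤ} (hn : n = 0) (α : (stdEven T).S 0 ≅ (𝟙_ T)⟦t⟧)
    (h : n + ((0 : ℕ) : ℤ) = t) :
    ∃ ξ, (CV U V).j 0 n ξ = cls U i α h ⟨1, Cob.isWt_one⟩ := by
  subst hn
  have h0 : (0 : ℤ) + ((0 : ℕ) : ℤ) = 0 := by simp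
  let u : (𝟙_ T)⟦(0 : ℤ)⟧ ≅ 𝟙_ T := (shiftFunctorZero T ℤ).app (𝟙_ T)
  refine perm_cls (α := (stdEven T).zero.symm ≪≫ u.symm) α (h := h0) h ?_
  let X := (U.tow (𝟙_ T)).map (tensorRight V)
  let g : (𝟙_ T)⟦(0 : ℤ)⟧ ⟶ (tensorRight V).obj (𝟙_ T) := u.hom ≫ (redC i).app (𝟙_ T)
  refine ⟨(X.eD (𝟙_ T) h0).symm g, ?_⟩
  rw [cls_eq_qE U i h0 ⟨1, Cob.isWt_one⟩ (realizes_one u)]
  apply (X.eE (𝟙_ T) h0).injective
  refine (X.eE_j (𝟙_ T) h0 _).trans (Eq.trans ?_ (eE_qE U (𝟙_ T) (redC i) h0 _).symm)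
  refine (congrArg (· ≫ X.a 0) ((X.eD (𝟙_ T) h0).apply_symm_apply g)).trans ?_
  have h1 := (redC i).naturality (unitMap D.R (𝟙_ T))
  change (u.hom ≫ (redC i).app (𝟙_ T)) ≫ (tensorRight V).map (unitMap D.R (𝟙_ T)) =
    ((u.hom ≫ unitMap D.R (𝟙_ T)) ≫ 𝟙 _) ≫ (redC i).app (D.R ⊗ 𝟙_ T)
  rw [Category.comp_id, Category.assoc, Category.assoc, ← h1]
  rfl

variable {p : ℕ} [Fact p.Prime] (hp : p ≠ 2) {tt : Cob Laz 1} (ht : IsT1 p tt)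

include hp ht

lemma t_wt : Cob.IsWt ((p : ℤ) - 1) tt := by
  have h := (BCocycle p hp tt ht).1
  rwa [Nat.cast_sub (Fact.out : p.Prime).one_le, Nat.cast_one] at h

lemma b_wt : Cob.IsWt ((p : ℤ) * ((p : ℤ) - 1)) (bcls p tt) := by
  have h := (BCocycle p hp tt ht).2.2.1
  rwa [Nat.cast_mul, Nat.cast_sub (Fact.out : p.Prime).one_le, Nat.cast_one] at h

/-- The product of a permanent cycle with `t` is a permanent cycle. -/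
theorem perm_cup_t {s : ℕ} {w n t : ℤ} {α : (stdEven T).S w ≅ (𝟙_ T)⟦t⟧} {h : n + (s : ℤ) = t}
    {z : Cob.wt Laz s w} (hz : ∃ ξ, (CV U V).j s n ξ = cls U i α h z)
    {w' n' t' : ℤ} (hw : w' = w + (p - 1)) (hn : n' = n + (2 * (p - 1) - 1))
    (β : (stdEven T).S w' ≅ (𝟙_ T)⟦t'⟧) (h' : n' + ((s + 1 : ℕ) : ℤ) = t')
    (hy : Cob.IsWt w' (Cob.cup (a := s) (b := 1) z.1 tt)) :
    ∃ ξ, (CV U V).j (s + 1) n' ξ = cls U i β h' ⟨_, hy⟩ := by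
  have e1 : ((p - 1 : ℕ) : ℤ) = (p : ℤ) - 1 := by
    rw [Nat.cast_sub (Fact.out : p.Prime).one_le, Nat.cast_one]
  obtain ⟨a, ha⟩ := H762.exists_alpha_one D U hp ht e1.symm (t_wt hp ht)
  obtain ⟨ξ, hξ⟩ := hz
  refine perm_cls' hw.symm hn.symm β h' hy ⟨_, j_mul1 (a := 2 * ((p : ℤ) - 1) - 1) (by ring)
    (p - 1) (by rw [e1]) a _ ⟨tt, t_wt hp ht⟩ ha hξ (by rw [← h]; push_cast; ring)⟩

/-- The product of a permanent cycle with `b^K` is a permanent cycle. -/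
theorem perm_cupN {s : ℕ} {w n t : ℤ} {α : (stdEven T).S w ≅ (𝟙_ T)⟦t⟧} {h : n + (s : ℤ) = t}
    {z : Cob.wt Laz s w} (hz : ∃ ξ, (CV U V).j s n ξ = cls U i α h z) (K : ℕ)
    {w' n' t' : ℤ} (hw : w' = w + K * (p * (p - 1))) (hn : n' = n + K * (2 * (p * (p - 1)) - 2))
    (β : (stdEven T).S w' ≅ (𝟙_ T)⟦t'⟧) (h' : n' + ((s + 2 * K : ℕ) : ℤ) = t')
    (hy : Cob.IsWt w' (cupN z.1 (bcls p tt) K)) :
    ∃ ξ, (CV U V).j (s + 2 * K) n' ξ = cls U i β h' ⟨_, hy⟩ := by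
  have e1 : ((p - 1 : ℕ) : ℤ) = (p : ℤ) - 1 := by
    rw [Nat.cast_sub (Fact.out : p.Prime).one_le, Nat.cast_one]
  have hk : 2 * ((p : ℤ) * ((p : ℤ) - 1)) = 2 * ((p * (p - 1) : ℕ) : ℤ) := by
    rw [Nat.cast_mul, e1]
  obtain ⟨x, hx⟩ := B.exists_beta_one D U hp ht (by push_cast; rw [e1]) (b_wt hp ht)
  obtain ⟨ξ, hξ⟩ := hz
  refine perm_cls' (by rw [hw, Couple.Mul2.deg_eq]) (by rw [hn, Couple.Mul2.deg_eq]) β h' hy
    ⟨_, j_powD (a := 2 * ((p : ℤ) * ((p : ℤ) - 1)) - 2) (by ring) x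
      (fun s => U.ξ_comm_of_even (p * (p - 1)) hk x s) _ ⟨_, b_wt hp ht⟩ hx hξ K⟩

variable (hV : (p : ℤ) • 𝟙 V = 0) (hT : H545.TodaRel p D U)

include hV hT

/-- **The Toda relation**: `z ∪ b^p ∪ t` is the class of an element which dies in filtration `0`. -/
theorem null_toda {s : ℕ} {w n t : ℤ} {α : (stdEven T).S w ≅ (𝟙_ T)⟦t⟧} {h : n + (s : ℤ) = t}
    {z : Cob.wt Laz s w} (hz : ∃ ξ, (CV U V).j s n ξ = cls U i α h z)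
    {w' n' t' : ℤ} (hw : w' = w + p * (p * (p - 1)) + (p - 1))
    (hn : n' = n + p * (2 * (p * (p - 1)) - 2) + (2 * (p - 1) - 1))
    (β : (stdEven T).S w' ≅ (𝟙_ T)⟦t'⟧) (h' : n' + ((s + 2 * p + 1 : ℕ) : ℤ) = t')
    (hy : Cob.IsWt w' (Cob.cup (a := s + 2 * p) (b := 1) (cupN z.1 (bcls p tt) p) tt)) :
    Null (CV U V) 0 (cls U i β h' ⟨_, hy⟩) := by
  have e1 : ((p - 1 : ℕ) : ℤ) = (p : ℤ) - 1 := by
    rw [Nat.cast_sub (Fact.out : p.Prime).one_le, Nat.cast_one]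
  have hk : 2 * ((p : ℤ) * ((p : ℤ) - 1)) = 2 * ((p * (p - 1) : ℕ) : ℤ) := by
    rw [Nat.cast_mul, e1]
  obtain ⟨a, ha⟩ := H762.exists_alpha_one D U hp ht e1.symm (t_wt hp ht)
  obtain ⟨x, hx⟩ := B.exists_beta_one D U hp ht (by push_cast; rw [e1]) (b_wt hp ht)
  obtain ⟨g, hg⟩ := hT tt ht (t_wt hp ht) (b_wt hp ht) a ha x hx
  obtain ⟨ξ, hξ⟩ := hz
  have hkb : 2 * ((p : ℤ) * ((p : ℤ) - 1)) = (2 * ((p : ℤ) * ((p : ℤ) - 1)) - 2) + 2 := by ring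
  have hka : 2 * ((p : ℤ) - 1) = (2 * ((p : ℤ) - 1) - 1) + 1 := by ring
  have hc := fun s => U.ξ_comm_of_even (p * (p - 1)) hk x s
  have h1 := j_powD hkb x hc _ ⟨_, b_wt hp ht⟩ hx hξ p
  have h2 := j_mul1 hka (p - 1) (by rw [e1]) a _ ⟨tt, t_wt hp ht⟩ ha h1
    (by rw [← deg_add' hkb h p]; push_cast; ring)
  refine null_cls' (by rw [hw, Couple.Mul2.deg_eq]) (by rw [hn, Couple.Mul2.deg_eq]) β h' hy
    ⟨Nat.zero_le _, _, ?_, h2⟩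
  let M := M₂ U (𝟙_ T) (tensorRight V) hkb x hc
  let N := M₁ U (𝟙_ T) (tensorRight V) hka (p - 1) (by rw [e1]) a
  have h3 := N.proj_μ _ (Nat.zero_le (s + 2 * p)) (powD M p ξ)
  rw [proj_zero_powD] at h3
  refine ((CV U V).i_proj _ (Nat.add_le_add_right (Nat.zero_le (s + 2 * p)) 1) _).symm.trans ?_
  refine (congrArg _ h3).trans ?_
  refine (i_M₁_eq_zero_iff' U hka (p - 1) (by rw [e1]) a rfl _).2 ?_
  refine (tensor_powB_iff U hkb x hc rfl p rfl _ _).2 ?_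
  refine ((AI.assoc _ _ _).symm.trans (((AI.braid _ _).trans
    ((AI_tpow _ p).tensor (AI.refl _))).tensor (AI.refl _))).eq_zero ?_
  refine (congrArg (· ⊗ₘ _) hg.symm).trans ?_
  exact zsmul_tensor_kil hV g _

/-- **The Toda relation**, with the other order of the factors. -/
theorem null_toda' {s : ℕ} {w n t : ℤ} {α : (stdEven T).S w ≅ (𝟙_ T)⟦t⟧} {h : n + (s : ℤ) = t}
    {z : Cob.wt Laz s w} (hz : ∃ ξ, (CV U V).j s n ξ = cls U i α h z)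
    {w' n' t' : ℤ} (hw : w' = w + (p - 1) + p * (p * (p - 1)))
    (hn : n' = n + (2 * (p - 1) - 1) + p * (2 * (p * (p - 1)) - 2))
    (β : (stdEven T).S w' ≅ (𝟙_ T)⟦t'⟧) (h' : n' + ((s + 1 + 2 * p : ℕ) : ℤ) = t')
    (hy : Cob.IsWt w' (cupN (Cob.cup (a := s) (b := 1) z.1 tt) (bcls p tt) p)) :
    Null (CV U V) 0 (cls U i β h' ⟨_, hy⟩) := by
  have e1 : ((p - 1 : ℕ) : ℤ) = (p : ℤ) - 1 := by
    rw [Nat.cast_sub (Fact.out : p.Prime).one_le, Nat.cast_one]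
  have hk : 2 * ((p : ℤ) * ((p : ℤ) - 1)) = 2 * ((p * (p - 1) : ℕ) : ℤ) := by
    rw [Nat.cast_mul, e1]
  obtain ⟨a, ha⟩ := H762.exists_alpha_one D U hp ht e1.symm (t_wt hp ht)
  obtain ⟨x, hx⟩ := B.exists_beta_one D U hp ht (by push_cast; rw [e1]) (b_wt hp ht)
  obtain ⟨g, hg⟩ := hT tt ht (t_wt hp ht) (b_wt hp ht) a ha x hx
  obtain ⟨ξ, hξ⟩ := hz
  have hkb : 2 * ((p : ℤ) * ((p : ℤ) - 1)) = (2 * ((p : ℤ) * ((p : ℤ) - 1)) - 2) + 2 := by ring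
  have hka : 2 * ((p : ℤ) - 1) = (2 * ((p : ℤ) - 1) - 1) + 1 := by ring
  have hc := fun s => U.ξ_comm_of_even (p * (p - 1)) hk x s
  have h1 := j_mul1 hka (p - 1) (by rw [e1]) a _ ⟨tt, t_wt hp ht⟩ ha hξ
    (by rw [← h]; push_cast; ring)
  have h2 := j_powD hkb x hc _ ⟨_, b_wt hp ht⟩ hx h1 p
  refine null_cls' (by rw [hw, Couple.Mul2.deg_eq]) (by rw [hn, Couple.Mul2.deg_eq]) β h' hy
    ⟨Nat.zero_le _, _, ?_, h2⟩
  let N := M₁ U (𝟙_ T) (tensorRight V) hka (p - 1) (by rw [e1]) a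
  have h3 := N.proj_μ _ (Nat.zero_le s) ξ
  have h4 : (CV U V).proj _ (Nat.zero_le (s + 1)) (N.μ s n ξ) =
      (CV U V).i 0 _ (N.μ 0 n ((CV U V).proj n (Nat.zero_le s) ξ)) :=
    ((CV U V).i_proj _ (Nat.add_le_add_right (Nat.zero_le s) 1) _).symm.trans (congrArg _ h3)
  refine (proj_zero_powD p _).trans ((congrArg _ h4).trans ?_)
  refine (powB_eq_zero_iff U hkb x hc rfl p _).2 ?_
  refine (tensor_mul1_iff U hka (p - 1) (by rw [e1]) a rfl rfl _ _).2 ?_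
  refine ((AI.assoc _ _ _).symm.trans (((AI_tpow _ p).tensor (AI.refl _)).tensor
    (AI.refl _))).eq_zero ?_
  refine (congrArg (· ⊗ₘ _) hg.symm).trans ?_
  exact zsmul_tensor_kil hV g _

/-- **The Toda lemma**: if `α₁ ξ = 0` then `β₁^K ξ = 0` for `K ≥ (p-1)²`. -/
theorem null_cupN_of_alpha {s : ℕ} {w n t : ℤ} {α : (stdEven T).S w ≅ (𝟙_ T)⟦t⟧}
    {h : n + (s : ℤ) = t} {z : Cob.wt Laz s w} (hz : ∃ ξ, (CV U V).j s n ξ = cls U i α h z)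
    {w₁ n₁ t₁ : ℤ} (hw₁ : w₁ = w + (p - 1)) (hn₁ : n₁ = n + (2 * (p - 1) - 1))
    (β₁ : (stdEven T).S w₁ ≅ (𝟙_ T)⟦t₁⟧) (h₁ : n₁ + ((s + 1 : ℕ) : ℤ) = t₁)
    (hy₁ : Cob.IsWt w₁ (Cob.cup (a := s) (b := 1) z.1 tt))
    (hα : ∀ y, (CV U V).j (s + 1) n₁ y = cls U i β₁ h₁ ⟨_, hy₁⟩ →
      (CV U V).proj n₁ (Nat.zero_le _) y = 0)
    (K : ℕ) (hK : (p - 1) ^ 2 ≤ K)
    {w' n' t' : ℤ} (hw : w' = w + K * (p * (p - 1))) (hn : n' = n + K * (2 * (p * (p - 1)) - 2))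
    (β : (stdEven T).S w' ≅ (𝟙_ T)⟦t'⟧) (h' : n' + ((s + 2 * K : ℕ) : ℤ) = t')
    (hy : Cob.IsWt w' (cupN z.1 (bcls p tt) K)) :
    Null (CV U V) 0 (cls U i β h' ⟨_, hy⟩) := by
  subst hw₁; subst hn₁
  have e1 : ((p - 1 : ℕ) : ℤ) = (p : ℤ) - 1 := by
    rw [Nat.cast_sub (Fact.out : p.Prime).one_le, Nat.cast_one]
  have hk : 2 * ((p : ℤ) * ((p : ℤ) - 1)) = 2 * ((p * (p - 1) : ℕ) : ℤ) := by
    rw [Nat.cast_mul, e1]
  obtain ⟨a, ha⟩ := H762.exists_alpha_one D U hp ht e1.symm (t_wt hp ht)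
  obtain ⟨x, hx⟩ := B.exists_beta_one D U hp ht (by push_cast; rw [e1]) (b_wt hp ht)
  have hII := hT tt ht (t_wt hp ht) (b_wt hp ht) a ha x hx
  obtain ⟨ξ, hξ⟩ := hz
  have hkb : 2 * ((p : ℤ) * ((p : ℤ) - 1)) = (2 * ((p : ℤ) * ((p : ℤ) - 1)) - 2) + 2 := by ring
  have hka : 2 * ((p : ℤ) - 1) = (2 * ((p : ℤ) - 1) - 1) + 1 := by ring
  have hc := fun s => U.ξ_comm_of_even (p * (p - 1)) hk x s
  have h1 := j_powD hkb x hc _ ⟨_, b_wt hp ht⟩ hx hξ K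
  have h2 := j_mul1 hka (p - 1) (by rw [e1]) a _ ⟨tt, t_wt hp ht⟩ ha hξ
    (by rw [← h]; push_cast; ring)
  have h3 := allNull_cls (Nat.zero_le _) _ _ hα _ h2
  let N := M₁ U (𝟙_ T) (tensorRight V) hka (p - 1) (by rw [e1]) a
  have h4 := N.proj_μ _ (Nat.zero_le s) ξ
  have h5 : (CV U V).i 0 _ (N.μ 0 n ((CV U V).proj n (Nat.zero_le s) ξ)) = 0 :=
    (congrArg _ h4.symm).trans
      (((CV U V).i_proj _ (Nat.add_le_add_right (Nat.zero_le s) 1) _).trans h3)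
  have h6 := (i_M₁_eq_zero_iff' U hka (p - 1) (by rw [e1]) a rfl _).1 h5
  refine null_cls' (by rw [hw, Couple.Mul2.deg_eq]) (by rw [hn, Couple.Mul2.deg_eq]) β h' hy
    ⟨Nat.zero_le _, _, ?_, h1⟩
  refine (proj_zero_powD K ξ).trans ((powB_eq_zero_iff U hkb x hc rfl K _).2 ?_)
  refine ((AI_tpow _ _).tensor (AI.refl _)).eq_zero ?_
  exact H762.toda_beta D U hp ht e1.symm (by rw [Nat.cast_mul, e1]) (t_wt hp ht) (b_wt hp ht)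
    a ha x hx hII hV _ h6 K hK

/-- **Nilpotence of `β₁`**: `z ∪ b^K` is the class of an element which dies in filtration `0` if
`K ≥ (p-1)² + p`. -/
theorem null_pow {s : ℕ} {w n t : ℤ} {α : (stdEven T).S w ≅ (𝟙_ T)⟦t⟧} {h : n + (s : ℤ) = t}
    {z : Cob.wt Laz s w} (hz : ∃ ξ, (CV U V).j s n ξ = cls U i α h z)
    (K : ℕ) (hK : (p - 1) ^ 2 + p ≤ K)
    {w' n' t' : ℤ} (hw : w' = w + K * (p * (p - 1))) (hn : n' = n + K * (2 * (p * (p - 1)) - 2))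
    (β : (stdEven T).S w' ≅ (𝟙_ T)⟦t'⟧) (h' : n' + ((s + 2 * K : ℕ) : ℤ) = t')
    (hy : Cob.IsWt w' (cupN z.1 (bcls p tt) K)) :
    Null (CV U V) 0 (cls U i β h' ⟨_, hy⟩) := by
  have e1 : ((p - 1 : ℕ) : ℤ) = (p : ℤ) - 1 := by
    rw [Nat.cast_sub (Fact.out : p.Prime).one_le, Nat.cast_one]
  have hk : 2 * ((p : ℤ) * ((p : ℤ) - 1)) = 2 * ((p * (p - 1) : ℕ) : ℤ) := by
    rw [Nat.cast_mul, e1]
  obtain ⟨a, ha⟩ := H762.exists_alpha_one D U hp ht e1.symm (t_wt hp ht)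
  obtain ⟨x, hx⟩ := B.exists_beta_one D U hp ht (by push_cast; rw [e1]) (b_wt hp ht)
  have hII := hT tt ht (t_wt hp ht) (b_wt hp ht) a ha x hx
  obtain ⟨ξ, hξ⟩ := hz
  have hkb : 2 * ((p : ℤ) * ((p : ℤ) - 1)) = (2 * ((p : ℤ) * ((p : ℤ) - 1)) - 2) + 2 := by ring
  have hc := fun s => U.ξ_comm_of_even (p * (p - 1)) hk x s
  have h1 := j_powD hkb x hc _ ⟨_, b_wt hp ht⟩ hx hξ K
  refine null_cls' (by rw [hw, Couple.Mul2.deg_eq]) (by rw [hn, Couple.Mul2.deg_eq]) β h' hy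
    ⟨Nat.zero_le _, _, ?_, h1⟩
  refine (proj_zero_powD K ξ).trans ((powB_eq_zero_iff U hkb x hc rfl K _).2 ?_)
  obtain ⟨K', rfl⟩ : ∃ K', K = K' + p := ⟨K - p, by omega⟩
  refine ((AI_tpow _ _).tensor (AI.refl _)).eq_zero ?_
  refine (((H762.AI_tSm_add _ K' p).tensor (AI.refl _)).trans (AI.assoc _ _ _)).eq_zero ?_
  obtain ⟨g, hg⟩ := hII
  refine H762.toda_beta D U hp ht e1.symm (by rw [Nat.cast_mul, e1]) (t_wt hp ht) (b_wt hp ht)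
    a ha x hx ⟨g, hg⟩ (kil_left hV _) _ ?_ K' (by omega)
  refine ((AI.assoc _ _ _).symm.trans ((AI.braid _ _).tensor (AI.refl _))).eq_zero ?_
  refine (congrArg (· ⊗ₘ _) hg.symm).trans ?_
  exact zsmul_tensor_kil hV g _

end Vale.Agent.P236S
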